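import Mathlib

/-!
Noncommutative formulas, matrix hitting sets and their binary encodings.
-/

universe u

namespace Vale.Agent.P314

/-- Noncommutative formulas over `F` in the variables `x_i`, `i : Fin n`: binary trees whose
leaves are variables or scalars and whose gates are ordered sums and products. -/
inductive Formula (F : Type u) (n : ℕ) : Type u
  | var (i : Fin n) : Formula F n
  | const (a : F) : Formula F n
  | add (φ ψ : Formula F n) : Formula F n
  | mul (φ ψ : Formula F n) : Formula F n

/-- The size of a formula: the number of vertices, leaves included. -/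
def Formula.size {F : Type u} {n : ℕ} : Formula F n → ℕ
  | .var _ => 1
  | .const _ => 1
  | .add φ ψ => φ.size + ψ.size + 1
  | .mul φ ψ => φ.size + ψ.size + 1

/-- The element of the free associative algebra computed by a formula. -/
noncomputable def Formula.poly {F : Type u} [Field F] {n : ℕ} :
    Formula F n → FreeAlgebra F (Fin n)
  | .var i => FreeAlgebra.ι F i
  | .const a => algebraMap F (FreeAlgebra F (Fin n)) a
  | .add φ ψ => φ.poly + ψ.poly
  | .mul φ ψ => φ.poly * ψ.poly

/-- A tuple of `n` square matrices over `F` of a common dimension. -/
structure Point (F : Type u) (n : ℕ) : Type u where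
  /-- the dimension -/
  dim : ℕ
  /-- the matrices -/
  mat : Fin n → Matrix (Fin dim) (Fin dim) F

/-- Ordered matrix evaluation `f(T)` of a noncommutative polynomial. -/
noncomputable def Point.eval {F : Type u} [Field F] {n : ℕ} (T : Point F n)
    (f : FreeAlgebra F (Fin n)) : Matrix (Fin T.dim) (Fin T.dim) F :=
  FreeAlgebra.lift F T.mat f

/-- `H` is a hitting set for the polynomials computed by formulas of size at most `s`. -/
def IsHittingSet {F : Type u} [Field F] {n : ℕ} (s : ℕ) (H : List (Point F n)) : Prop :=
  ∀ φ : Formula F n, φ.size ≤ s → φ.poly ≠ 0 → ∃ T ∈ H, T.eval φ.poly ≠ 0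

/-- The input `1^n 0 1^s`. -/
def encodeInput (x : ℕ × ℕ) : List Bool :=
  List.replicate x.1 true ++ false :: List.replicate x.2 true

/-- Self-delimiting code of a field element: each bit `b` of `enc a` is written `1 b`, then `0`. -/
def encodeElem {F : Type u} (enc : F → List Bool) (a : F) : List Bool :=
  ((enc a).flatMap fun b => [true, b]) ++ [false]

/-- Code of a tuple: `1^dim 0`, then all entries, matrix by matrix and row by row. -/
def encodePoint {F : Type u} {n : ℕ} (enc : F → List Bool) (T : Point F n) : List Bool :=
  List.replicate T.dim true ++ false ::
    (List.finRange n).flatMap fun i => (List.finRange T.dim).flatMap fun a =>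
      (List.finRange T.dim).flatMap fun b => encodeElem enc (T.mat i a b)

/-- Code of a finite list of tuples. -/
def encodeSet {F : Type u} {n : ℕ} (enc : F → List Bool) (H : List (Point F n)) : List Bool :=
  H.flatMap (encodePoint enc)

end Vale.Agent.P314
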