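import Vale.Agent.P314.Defs

/-!
Noncommutative algebraic branching programs.
-/

universe u

namespace Vale.Agent.P314

/-- The affine linear form `c none + ∑ c (some i) x_i`. -/
noncomputable def affine {F : Type u} [Field F] {n : ℕ} (c : Option (Fin n) → F) :
    FreeAlgebra F (Fin n) :=
  algebraMap F (FreeAlgebra F (Fin n)) (c none) + ∑ i, c (some i) • FreeAlgebra.ι F i

/-- A layered noncommutative algebraic branching program: every level has `width` vertices, and
each layer gives the coefficients of the affine label of the edge between two vertices of
consecutive levels. -/
structure ABP (F : Type u) (n : ℕ) : Type u where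
  /-- number of vertices on each level -/
  width : ℕ
  /-- edge labels, layer by layer -/
  layers : List (Fin width → Fin width → Option (Fin n) → F)
  /-- the source, on the first level -/
  source : Fin width
  /-- the sink, on the last level -/
  sink : Fin width

/-- The number of vertices. -/
def ABP.size {F : Type u} {n : ℕ} (A : ABP F n) : ℕ := A.width * (A.layers.length + 1)

/-- The polynomial computed: the source-sink entry of the ordered product of the label matrices,
that is, the sum over source-sink paths of the ordered products of the labels. -/
noncomputable def ABP.poly {F : Type u} [Field F] {n : ℕ} (A : ABP F n) :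
    FreeAlgebra F (Fin n) :=
  (A.layers.map fun L => Matrix.of fun a b => affine (L a b)).prod A.source A.sink

/-- `H` is a hitting set for the polynomials computed by branching programs with at most `s`
vertices. -/
def IsHittingSetABP {F : Type u} [Field F] {n : ℕ} (s : ℕ) (H : List (Point F n)) : Prop :=
  ∀ A : ABP F n, A.size ≤ s → A.poly ≠ 0 → ∃ T ∈ H, T.eval A.poly ≠ 0

end Vale.Agent.P314
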