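import Mathlib

/-!
Left quotients in the free algebra and quotient-closed spanning sets.
-/

namespace Vale.Agent.P314

variable {F : Type*} [Field F] {ι : Type*}

/-- The monomial of a word. -/
noncomputable def wd (F : Type*) [Field F] (w : List ι) : FreeAlgebra F ι :=
  (w.map (FreeAlgebra.ι F)).prod

@[simp] lemma wd_nil : wd F ([] : List ι) = 1 := by simp [wd]

@[simp] lemma wd_cons (i : ι) (w : List ι) : wd F (i :: w) = FreeAlgebra.ι F i * wd F w := by
  simp [wd]

lemma wd_append (v w : List ι) : wd F (v ++ w) = wd F v * wd F w := by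
  simp [wd]

/-- The basis of words. -/
noncomputable def bas (F : Type*) [Field F] (ι : Type*) :
    Module.Basis (List ι) F (FreeAlgebra F ι) :=
  (FreeAlgebra.basisFreeMonoid F ι).reindex FreeMonoid.toList

lemma bas_apply (w : List ι) : bas F ι w = wd F w := by
  have h : ∀ w : FreeMonoid ι, FreeAlgebra.basisFreeMonoid F ι w =
      FreeMonoid.lift (FreeAlgebra.ι F) w := by
    intro w
    simp [FreeAlgebra.basisFreeMonoid, FreeAlgebra.equivMonoidAlgebraFreeMonoid]
  rw [bas, Module.Basis.reindex_apply, h, wd]
  simp [FreeMonoid.lift_apply]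

lemma induction_wd {P : FreeAlgebra F ι → Prop} (h0 : P 0) (hw : ∀ w, P (wd F w))
    (hadd : ∀ a b, P a → P b → P (a + b)) (hsmul : ∀ (c : F) a, P a → P (c • a)) (a) : P a := by
  have ha : a ∈ Submodule.span F (Set.range (bas F ι)) := by
    rw [(bas F ι).span_eq]; trivial
  induction ha using Submodule.span_induction with
  | mem x hx => obtain ⟨w, rfl⟩ := hx; rw [bas_apply]; exact hw w
  | zero => exact h0
  | add x y _ _ hx hy => exact hadd x y hx hy
  | smul c x _ hx => exact hsmul c x hx

variable [DecidableEq ι]

/-- Left quotient of a word by a letter. -/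
noncomputable def derWord (F : Type*) [Field F] (i : ι) : List ι → FreeAlgebra F ι
  | [] => 0
  | j :: w => if j = i then wd F w else 0

/-- Left quotient by a letter. -/
noncomputable def der (i : ι) : FreeAlgebra F ι →ₗ[F] FreeAlgebra F ι :=
  (bas F ι).constr F (derWord F i)

lemma der_wd (i : ι) (w : List ι) : der i (wd F w) = derWord F i w := by
  rw [← bas_apply, der, Module.Basis.constr_basis]

lemma der_one (i : ι) : der i (1 : FreeAlgebra F ι) = 0 := by
  rw [← wd_nil, der_wd]; rfl

lemma der_ι_mul (i j : ι) (a : FreeAlgebra F ι) :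
    der i (FreeAlgebra.ι F j * a) = if j = i then a else 0 := by
  induction a using induction_wd with
  | h0 => simp
  | hw w => rw [← wd_cons, der_wd]; rfl
  | hadd a b ha hb => rw [mul_add, map_add, ha, hb]; split_ifs <;> simp
  | hsmul c a ha => rw [mul_smul_comm, map_smul, ha]; split_ifs <;> simp

lemma repr_der (i : ι) (a : FreeAlgebra F ι) (w : List ι) :
    (bas F ι).repr (der i a) w = (bas F ι).repr a (i :: w) := by
  induction a using induction_wd with
  | h0 => simp
  | hw v =>
    rw [der_wd]
    cases v with
    | nil => rw [← bas_apply]; simp [derWord]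
    | cons j v =>
      rw [← bas_apply, derWord, Module.Basis.repr_self]
      split_ifs with h
      · subst h
        rw [← bas_apply, Module.Basis.repr_self]
        simp [Finsupp.single_apply]
      · simp [h]
  | hadd a b ha hb => simp [ha, hb]
  | hsmul c a ha => simp [ha]

lemma der_mul (i : ι) (a b : FreeAlgebra F ι) :
    der i (a * b) = der i a * b + (bas F ι).repr a [] • der i b := by
  induction a using induction_wd with
  | h0 => simp
  | hw v =>
    cases v with
    | nil =>
      rw [← bas_apply, Module.Basis.repr_self, bas_apply]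
      simp [der_one]
    | cons j v =>
      rw [← bas_apply, Module.Basis.repr_self, bas_apply, wd_cons, mul_assoc, der_ι_mul,
        der_ι_mul]
      split_ifs <;> simp
  | hadd a c ha hc =>
    rw [add_mul, map_add, ha, hc, map_add, map_add, Finsupp.add_apply, add_mul, add_smul]; abel
  | hsmul c a ha =>
    rw [smul_mul_assoc, map_smul, ha, map_smul, map_smul, Finsupp.smul_apply, smul_add,
      smul_mul_assoc, smul_eq_mul, mul_smul]

/-- `G` spans a space closed under left quotients. -/
def Closed (G : Finset (FreeAlgebra F ι)) : Prop :=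
  ∀ g ∈ G, ∀ i, der i g ∈ Submodule.span F (G : Set (FreeAlgebra F ι))

lemma Closed.der_mem {G : Finset (FreeAlgebra F ι)} (hG : Closed G) (i : ι) :
    ∀ a ∈ Submodule.span F (G : Set (FreeAlgebra F ι)),
      der i a ∈ Submodule.span F (G : Set (FreeAlgebra F ι)) := by
  intro a ha
  have : Submodule.span F (G : Set (FreeAlgebra F ι)) ≤
      (Submodule.span F (G : Set (FreeAlgebra F ι))).comap (der i) :=
    Submodule.span_le.mpr fun g hg => hG g hg i
  exact this ha

/-- `a` lies in a quotient-closed space with at most `N` generators. -/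
def Small (N : ℕ) (a : FreeAlgebra F ι) : Prop :=
  ∃ G : Finset (FreeAlgebra F ι), G.card ≤ N ∧ Closed G ∧
    a ∈ Submodule.span F (G : Set (FreeAlgebra F ι))

lemma Small.mono {N N' : ℕ} {a : FreeAlgebra F ι} (h : Small N a) (hN : N ≤ N') : Small N' a := by
  obtain ⟨G, h1, h2, h3⟩ := h
  exact ⟨G, h1.trans hN, h2, h3⟩

lemma small_const (c : F) : Small 1 (algebraMap F (FreeAlgebra F ι) c) := by
  refine ⟨{1}, by simp, ?_, ?_⟩
  · intro g hg i
    rw [Finset.mem_singleton] at hg
    rw [hg, der_one]; exact Submodule.zero_mem _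
  · rw [Algebra.algebraMap_eq_smul_one]
    exact Submodule.smul_mem _ _ (Submodule.subset_span (by simp))

lemma small_var (j : ι) : Small 2 (FreeAlgebra.ι F j) := by
  classical
  refine ⟨{FreeAlgebra.ι F j, 1}, Finset.card_le_two, ?_, Submodule.subset_span (by simp)⟩
  intro g hg i
  simp only [Finset.mem_insert, Finset.mem_singleton] at hg
  rcases hg with rfl | rfl
  · rw [← mul_one (FreeAlgebra.ι F j), der_ι_mul]
    split_ifs
    · exact Submodule.subset_span (by simp)
    · exact Submodule.zero_mem _
  · rw [der_one]; exact Submodule.zero_mem _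

lemma Small.add {M N : ℕ} {a b : FreeAlgebra F ι} (ha : Small M a) (hb : Small N b) :
    Small (M + N) (a + b) := by
  classical
  obtain ⟨G, h1, h2, h3⟩ := ha
  obtain ⟨H, k1, k2, k3⟩ := hb
  have hG : Submodule.span F (G : Set (FreeAlgebra F ι)) ≤
      Submodule.span F ((G ∪ H : Finset (FreeAlgebra F ι)) : Set (FreeAlgebra F ι)) :=
    Submodule.span_mono (by simp)
  have hH : Submodule.span F (H : Set (FreeAlgebra F ι)) ≤
      Submodule.span F ((G ∪ H : Finset (FreeAlgebra F ι)) : Set (FreeAlgebra F ι)) :=
    Submodule.span_mono (by simp)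
  refine ⟨G ∪ H, (Finset.card_union_le _ _).trans (by omega), ?_,
    Submodule.add_mem _ (hG h3) (hH k3)⟩
  intro g hg i
  rcases Finset.mem_union.mp hg with h | h
  · exact hG (h2 g h i)
  · exact hH (k2 g h i)

lemma Small.mul {M N : ℕ} {a b : FreeAlgebra F ι} (ha : Small M a) (hb : Small N b) :
    Small (M + N) (a * b) := by
  classical
  obtain ⟨G, h1, h2, h3⟩ := ha
  obtain ⟨H, k1, k2, k3⟩ := hb
  set J : Finset (FreeAlgebra F ι) := G.image (· * b) ∪ H with hJ
  have hG : ∀ x ∈ Submodule.span F (G : Set (FreeAlgebra F ι)),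
      x * b ∈ Submodule.span F (J : Set (FreeAlgebra F ι)) := by
    intro x hx
    have : Submodule.span F (G : Set (FreeAlgebra F ι)) ≤
        (Submodule.span F (J : Set (FreeAlgebra F ι))).comap (LinearMap.mulRight F b) := by
      refine Submodule.span_le.mpr fun g hg => ?_
      apply Submodule.subset_span
      simp only [hJ, Finset.coe_union, Finset.coe_image, Set.mem_union, Set.mem_image]
      exact Or.inl ⟨g, hg, rfl⟩
    exact this hx
  have hH : Submodule.span F (H : Set (FreeAlgebra F ι)) ≤
      Submodule.span F (J : Set (FreeAlgebra F ι)) :=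
    Submodule.span_mono (by simp [hJ])
  refine ⟨J, (Finset.card_union_le _ _).trans ?_, ?_, hG a h3⟩
  · have := Finset.card_image_le (s := G) (f := (· * b))
    omega
  · intro g hg i
    rcases Finset.mem_union.mp hg with h | h
    · obtain ⟨x, hx, rfl⟩ := Finset.mem_image.mp h
      rw [der_mul]
      exact Submodule.add_mem _ (hG _ (h2 x hx i))
        (Submodule.smul_mem _ _ (hH (k2.der_mem i b k3)))
    · exact hH (k2 g h i)

end Vale.Agent.P314
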