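import Mathlib

/-!
The operators `(1 - σ)⁻¹ z / (1 - t^i z)` on `F[[t]][[z]]` and their truncations.
-/

open PowerSeries Finset

namespace Vale.Agent.P314

variable {F : Type*} [Field F]

/-- The series `1 / (1 - t^c)`. -/
noncomputable def geo (F : Type*) [Field F] (c : ℕ) : F⟦X⟧ :=
  PowerSeries.mk fun l => if c ∣ l then 1 else 0

lemma geo_mul {c : ℕ} (hc : 0 < c) : (1 - X ^ c) * geo F c = 1 := by
  ext l
  rw [sub_mul, one_mul, map_sub, coeff_X_pow_mul', geo, coeff_mk, coeff_one]
  by_cases h : c ≤ l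
  · rw [if_pos h, coeff_mk, if_neg (by omega : ¬ l = 0)]
    have : c ∣ l - c ↔ c ∣ l := by
      constructor
      · intro h1
        have := Nat.dvd_add h1 (dvd_refl c)
        rwa [Nat.sub_add_cancel h] at this
      · intro h1; exact Nat.dvd_sub h1 (dvd_refl c)
    simp only [this, sub_self]
  · rw [if_neg h, sub_zero]
    have : c ∣ l ↔ l = 0 := by
      constructor
      · intro h1; exact Nat.eq_zero_of_dvd_of_lt h1 (by omega)
      · rintro rfl; exact dvd_zero c
    simp only [this]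

/-- The inner sum, the coefficient of `z^m` in `z h / (1 - t^i z)`. -/
noncomputable def inner (i : ℕ) (h : F⟦X⟧⟦X⟧) (m : ℕ) : F⟦X⟧ :=
  ∑ k ∈ range m, X ^ (i * (m - 1 - k)) * coeff k h

lemma inner_succ (i : ℕ) (h : F⟦X⟧⟦X⟧) (m : ℕ) :
    inner i h (m + 1) = X ^ i * inner i h m + coeff m h := by
  rw [inner, inner, sum_range_succ, mul_sum]
  congr 1
  · refine sum_congr rfl fun k hk => ?_
    have hk' := mem_range.mp hk
    rw [← mul_assoc, ← pow_add]
    congr 2
    have : m + 1 - 1 - k = (m - 1 - k) + 1 := by omega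
    rw [this]; ring
  · simp

/-- The operator `(1 - σ)⁻¹ z / (1 - t^i z)` where `σ z = t^c z`. -/
noncomputable def opS (F : Type*) [Field F] (c i : ℕ) : Module.End F F⟦X⟧⟦X⟧ where
  toFun h := PowerSeries.mk fun m => geo F (c * m) * inner i h m
  map_add' h h' := by
    ext1 m
    simp only [coeff_mk, map_add, inner, mul_add, sum_add_distrib]
  map_smul' a h := by
    ext1 m
    simp only [coeff_mk, inner, RingHom.id_apply, coeff_smul, mul_smul_comm, ← smul_sum]

lemma coeff_opS (c i : ℕ) (h : F⟦X⟧⟦X⟧) (m : ℕ) :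
    coeff m (opS F c i h) = geo F (c * m) * inner i h m :=
  coeff_mk m fun m => geo F (c * m) * inner i h m

lemma one_sub_mul_coeff_opS {c : ℕ} (hc : 0 < c) (i : ℕ) (h : F⟦X⟧⟦X⟧) (m : ℕ) :
    (1 - X ^ (c * m)) * coeff m (opS F c i h) = inner i h m := by
  rw [coeff_opS]
  rcases Nat.eq_zero_or_pos m with rfl | hm
  · simp [inner]
  · rw [← mul_assoc, geo_mul (Nat.mul_pos hc hm), one_mul]

lemma opS_eqn {c : ℕ} (hc : 0 < c) (i : ℕ) (h : F⟦X⟧⟦X⟧) :
    (1 - C (X ^ i : F⟦X⟧) * X) * (opS F c i h - rescale (X ^ c : F⟦X⟧) (opS F c i h)) = X * h := by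
  have h1 : opS F c i h - rescale (X ^ c : F⟦X⟧) (opS F c i h) = PowerSeries.mk (inner i h) := by
    ext1 m
    rw [map_sub, coeff_rescale, coeff_mk, ← one_sub_mul_coeff_opS hc, ← pow_mul]
    ring
  rw [h1]
  ext1 m
  rw [sub_mul, one_mul, map_sub, mul_assoc, coeff_C_mul]
  cases m with
  | zero => simp [inner]
  | succ m => rw [coeff_succ_X_mul, coeff_succ_X_mul, coeff_mk, coeff_mk, inner_succ]; ring

/-- The common denominator of the coefficient of `z^m`. -/
noncomputable def den (F : Type*) [Field F] (c m : ℕ) : F⟦X⟧ :=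
  ∏ j ∈ range m, (1 - X ^ (c * (j + 1)))

lemma den_ne_zero {c : ℕ} (hc : 0 < c) (m : ℕ) : den F c m ≠ 0 := by
  rw [den]
  refine prod_ne_zero_iff.mpr fun j _ h => ?_
  have := geo_mul (F := F) (Nat.mul_pos hc (Nat.succ_pos j))
  rw [h, zero_mul] at this
  exact zero_ne_one this

/-- Power series in `t` all of whose coefficients beyond degree `δ` vanish. -/
def PolyLe (δ : ℕ) (g : F⟦X⟧) : Prop := ∀ l, δ < l → coeff l g = 0

lemma PolyLe.add {δ : ℕ} {g g' : F⟦X⟧} (h : PolyLe δ g) (h' : PolyLe δ g') : PolyLe δ (g + g') :=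
  fun l hl => by rw [map_add, h l hl, h' l hl, add_zero]

lemma PolyLe.sub {δ : ℕ} {g g' : F⟦X⟧} (h : PolyLe δ g) (h' : PolyLe δ g') : PolyLe δ (g - g') :=
  fun l hl => by rw [map_sub, h l hl, h' l hl, sub_zero]

lemma PolyLe.mono {δ δ' : ℕ} {g : F⟦X⟧} (h : PolyLe δ g) (hδ : δ ≤ δ') : PolyLe δ' g :=
  fun l hl => h l (by omega)

lemma PolyLe.X_pow_mul {δ : ℕ} {g : F⟦X⟧} (h : PolyLe δ g) (e : ℕ) :
    PolyLe (δ + e) (X ^ e * g) := fun l hl => by
  rw [coeff_X_pow_mul', if_pos (by omega), h _ (by omega)]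

/-- All coefficients are rational functions of controlled height. -/
def Good (c : ℕ) (h : F⟦X⟧⟦X⟧) : Prop :=
  ∀ m, PolyLe (c * (m * (m + 1))) (den F c m * coeff m h)

lemma good_one (c : ℕ) : Good c (1 : F⟦X⟧⟦X⟧) := by
  intro m l hl
  rw [coeff_one]
  split_ifs with h
  · subst h
    simp only [den, range_zero, prod_empty, mul_one, coeff_one]
    rw [if_neg (by omega)]
  · simp

lemma good_zero (c : ℕ) : Good c (0 : F⟦X⟧⟦X⟧) := by
  intro m l _
  simp

lemma Good.add {c : ℕ} {h h' : F⟦X⟧⟦X⟧} (a : Good c h) (b : Good c h') : Good c (h + h') := by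
  intro m
  rw [map_add, mul_add (den F c m)]
  exact (a m).add (b m)

lemma Good.smul {c : ℕ} {h : F⟦X⟧⟦X⟧} (a : Good c h) (r : F) : Good c (r • h) := by
  intro m l hl
  rw [coeff_smul, mul_smul_comm, coeff_smul, a m l hl, smul_zero]

lemma Good.opS {c i : ℕ} (hi : i < c) {h : F⟦X⟧⟦X⟧} (a : Good c h) : Good c (opS F c i h) := by
  have hc : 0 < c := by omega
  have key : ∀ m, PolyLe (c * (m * (m + 1)) + c) (den F c m * inner i h (m + 1)) := by
    intro m
    induction m with
    | zero =>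
      have := a 0
      rw [inner_succ]
      simp only [inner, range_zero, sum_empty, mul_zero, zero_add] at this ⊢
      exact this.mono (by omega)
    | succ m ih =>
      rw [inner_succ, mul_add (den F c (m + 1))]
      refine PolyLe.add ?_ ((a (m + 1)).mono (by omega))
      have h1 : den F c (m + 1) * (X ^ i * inner i h (m + 1)) =
          X ^ i * (den F c m * inner i h (m + 1)) -
            X ^ (i + c * (m + 1)) * (den F c m * inner i h (m + 1)) := by
        rw [den, prod_range_succ, ← den, pow_add]; ring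
      rw [h1]
      refine PolyLe.sub ((ih.X_pow_mul i).mono ?_) ((ih.X_pow_mul _).mono ?_)
      · nlinarith
      · nlinarith
  intro m
  cases m with
  | zero => intro l _; simp [coeff_opS, inner]
  | succ m =>
    rw [den, prod_range_succ, ← den, mul_assoc, one_sub_mul_coeff_opS hc]
    exact (key m).mono (by nlinarith)

lemma Good.eq_zero {c : ℕ} (hc : 0 < c) {h : F⟦X⟧⟦X⟧} (a : Good c h) (m R : ℕ)
    (hR : c * (m * (m + 1)) < R) (h0 : ∀ l < R, coeff l (coeff m h) = 0) : coeff m h = 0 := by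
  have h1 : (X : F⟦X⟧) ^ R ∣ den F c m * coeff m h := (X_pow_dvd_iff.mpr h0).mul_left _
  rw [X_pow_dvd_iff] at h1
  have h2 : den F c m * coeff m h = 0 := by
    ext l
    rcases Nat.lt_or_ge l R with hl | hl
    · rw [h1 l hl, map_zero]
    · rw [a m l (by omega), map_zero]
  exact (mul_eq_zero.mp h2).resolve_left (den_ne_zero hc m)

/-- The pattern of ones in the truncated operator. -/
def Ent (c i k' l' k l : ℕ) : Prop :=
  k < k' ∧ ∃ j < l' + 1, l + i * (k' - 1 - k) + c * k' * j = l'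

instance (c i k' l' k l : ℕ) : Decidable (Ent c i k' l' k l) := by
  unfold Ent; infer_instance

lemma coeff_coeff_opS {c : ℕ} (hc : 0 < c) (i : ℕ) (h : F⟦X⟧⟦X⟧) {M R k' l' : ℕ}
    (hk : k' < M) (hl : l' < R) :
    coeff l' (coeff k' (opS F c i h)) =
      ∑ k ∈ range M, ∑ l ∈ range R, if Ent c i k' l' k l then coeff l (coeff k h) else 0 := by
  rw [coeff_opS, inner, mul_sum, map_sum]
  rw [← sum_subset (range_subset_range.mpr hk.le)]
  · refine sum_congr rfl fun k hkk => ?_
    have hkk' := mem_range.mp hkk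
    rw [← mul_assoc, mul_comm _ (coeff k h), coeff_mul, Nat.sum_antidiagonal_eq_sum_range_succ_mk]
    rw [← sum_subset (range_subset_range.mpr (Nat.succ_le_of_lt hl))]
    · refine sum_congr rfl fun l hll => ?_
      have hll' := mem_range.mp hll
      simp only
      rw [coeff_mul_X_pow', geo]
      have hpos : 0 < c * k' := Nat.mul_pos hc (by omega)
      by_cases hE : Ent c i k' l' k l
      · rw [if_pos hE]
        obtain ⟨-, j, -, hj⟩ := hE
        rw [if_pos (by omega), coeff_mk, if_pos ⟨j, by omega⟩, mul_one]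
      · rw [if_neg hE]
        split_ifs with h1
        · rw [coeff_mk, if_neg, mul_zero]
          rintro ⟨j, hj⟩
          refine hE ⟨hkk', j, ?_, by omega⟩
          have : j ≤ c * k' * j := Nat.le_mul_of_pos_left j hpos
          omega
        · rw [mul_zero]
    · intro l _ hl2
      rw [if_neg]
      rintro ⟨-, j, -, hj⟩
      apply hl2
      rw [mem_range]; omega
  · intro k _ hk2
    refine sum_eq_zero fun l _ => ?_
    rw [if_neg]
    rintro ⟨h1, -⟩
    exact hk2 (mem_range.mpr h1)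

/-- The truncated operator as a zero-one matrix. -/
def matT (F : Type*) [Field F] (c M R i : ℕ) : Matrix (Fin (M * R)) (Fin (M * R)) F :=
  Matrix.of fun a b => if Ent c i (a / R) (a % R) (b / R) (b % R) then 1 else 0

/-- Truncation of a double power series. -/
noncomputable def trunc2 (M R : ℕ) (h : F⟦X⟧⟦X⟧) : Fin (M * R) → F :=
  fun a => coeff (a % R) (coeff (a / R) h)

lemma trunc2_opS {c : ℕ} (hc : 0 < c) (M R i : ℕ) (h : F⟦X⟧⟦X⟧) :
    trunc2 M R (opS F c i h) = (matT F c M R i).mulVec (trunc2 M R h) := by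
  ext a
  have hR : 0 < R := by
    rcases Nat.eq_zero_or_pos R with h0 | h0
    · subst h0; exact absurd a.2 (by simp)
    · exact h0
  have ha1 : (a : ℕ) / R < M := by
    rw [Nat.div_lt_iff_lt_mul hR]; exact a.2
  have ha2 : (a : ℕ) % R < R := Nat.mod_lt _ hR
  rw [trunc2, coeff_coeff_opS hc i h ha1 ha2]
  simp only [Matrix.mulVec, dotProduct, matT, Matrix.of_apply, trunc2, ite_mul, one_mul, zero_mul]
  rw [← finProdFinEquiv.sum_comp, Fintype.sum_prod_type, sum_range]
  refine sum_congr rfl fun k _ => ?_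
  rw [sum_range]
  refine sum_congr rfl fun l _ => ?_
  have e1 : ((finProdFinEquiv (k, l) : Fin (M * R)) : ℕ) / R = k := by
    rw [finProdFinEquiv_apply_val]
    simp only
    rw [Nat.add_mul_div_left _ _ hR, Nat.div_eq_of_lt l.2, zero_add]
  have e2 : ((finProdFinEquiv (k, l) : Fin (M * R)) : ℕ) % R = l := by
    rw [finProdFinEquiv_apply_val]
    simp only
    rw [Nat.add_mul_mod_self_left, Nat.mod_eq_of_lt l.2]
  rw [e1, e2]

lemma trunc2_lift {c : ℕ} (hc : 0 < c) (M R : ℕ) {ι : Type*} (e : ι → ℕ) (a : FreeAlgebra F ι) :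
    ∀ h : F⟦X⟧⟦X⟧, trunc2 M R (FreeAlgebra.lift F (fun i => opS F c (e i)) a h) =
      (FreeAlgebra.lift F (fun i => matT F c M R (e i)) a).mulVec (trunc2 M R h) := by
  induction a using FreeAlgebra.induction with
  | grade0 r =>
    intro h
    rw [AlgHom.commutes, AlgHom.commutes, Algebra.algebraMap_eq_smul_one,
      Algebra.algebraMap_eq_smul_one, Matrix.smul_mulVec, Matrix.one_mulVec]
    ext a
    simp [trunc2]
  | grade1 i =>
    intro h
    rw [FreeAlgebra.lift_ι_apply, FreeAlgebra.lift_ι_apply, trunc2_opS hc]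
  | mul a b ha hb =>
    intro h
    rw [map_mul, map_mul, Module.End.mul_apply, ha, hb, Matrix.mulVec_mulVec]
  | add a b ha hb =>
    intro h
    rw [map_add, map_add, LinearMap.add_apply, Matrix.add_mulVec, ← ha, ← hb]
    ext x
    simp [trunc2]

end Vale.Agent.P314
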