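import Vale.Agent.P314.ZeroSeries
import Vale.Agent.P314.Hankel
import Vale.Agent.P314.Series

/-!
The explicit zero-one matrices hit every nonzero polynomial with few left quotients.
-/

open Polynomial

namespace Vale.Agent.P314

variable {F : Type*} [Field F] {K : Type*} [Field K] {ι : Type*}

/-- Coefficient vector of a noncommutative polynomial, as constants of `K[z]`. -/
noncomputable def kap (ψ : F →+* K) (a : FreeAlgebra F ι) : List ι →₀ K[X] :=
  Finsupp.mapRange (fun r => C (ψ r)) (by simp) ((bas F ι).repr a)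

lemma kap_apply (ψ : F →+* K) (a : FreeAlgebra F ι) (w : List ι) :
    kap ψ a w = C (ψ ((bas F ι).repr a w)) := rfl

lemma kap_zero (ψ : F →+* K) : kap ψ (0 : FreeAlgebra F ι) = 0 := by
  ext1 w; simp [kap_apply]

lemma kap_add (ψ : F →+* K) (a b : FreeAlgebra F ι) : kap ψ (a + b) = kap ψ a + kap ψ b := by
  ext1 w; simp [kap_apply]

lemma kap_smul (ψ : F →+* K) (r : F) (a : FreeAlgebra F ι) :
    kap ψ (r • a) = (C (ψ r) : K[X]) • kap ψ a := by
  ext1 w; simp [kap_apply]

lemma kap_wd (ψ : F →+* K) (w : List ι) : kap ψ (wd F w) = Finsupp.single w 1 := by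
  rw [kap, ← bas_apply, Module.Basis.repr_self, Finsupp.mapRange_single]
  simp

lemma kap_ne_zero (ψ : F →+* K) {a : FreeAlgebra F ι} (ha : a ≠ 0) : kap ψ a ≠ 0 := by
  intro h
  apply ha
  apply (bas F ι).repr.injective
  ext w
  have := congrArg (fun u : List ι →₀ K[X] => u w) h
  simpa [kap_apply] using this

lemma kap_mem_span [DecidableEq (List ι →₀ K[X])] (ψ : F →+* K) (G : Finset (FreeAlgebra F ι)) :
    ∀ a ∈ Submodule.span F (G : Set (FreeAlgebra F ι)),
      kap ψ a ∈ Submodule.span K[X] ((G.image (kap ψ) : Finset (List ι →₀ K[X])) :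
        Set (List ι →₀ K[X])) := by
  intro a ha
  induction ha using Submodule.span_induction with
  | mem x hx =>
    apply Submodule.subset_span
    rw [Finset.coe_image]
    exact ⟨x, hx, rfl⟩
  | zero => rw [kap_zero]; exact Submodule.zero_mem _
  | add x y _ _ hx hy => rw [kap_add]; exact Submodule.add_mem _ hx hy
  | smul c x _ hx => rw [kap_smul]; exact Submodule.smul_mem _ _ hx

lemma psi_kap [Fintype ι] [DecidableEq ι] (ψ : F →+* K) (q : K) (b : ι → K)
    (a : FreeAlgebra F ι) :
    psi q b (kap ψ a) = bigQ b • kap ψ a - ∑ i, (X * smallQ b i) • kap ψ (der i a) := by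
  ext1 w
  rw [psi_apply]
  simp [kap_apply, repr_der]

lemma zpow_injective_of_pow {t : K} (ht0 : t ≠ 0) (ht : ∀ k : ℕ, t ^ k = 1 → k = 0) :
    Function.Injective fun k : ℤ => t ^ k := by
  intro k l hkl
  have h1 : t ^ (k - l) = 1 := by
    rw [zpow_sub₀ ht0]
    simp only at hkl
    rw [hkl, div_self (zpow_ne_zero _ ht0)]
  have h2 : t ^ (k - l).natAbs = 1 := by
    rcases Int.natAbs_eq (k - l) with h | h
    · rw [← zpow_natCast, ← h, h1]
    · rw [h, zpow_neg, zpow_natCast, inv_eq_one] at h1
      exact h1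
  have := ht _ h2
  omega

theorem hit (n N M R : ℕ) (hM : N * (N * n) < M) (hR : (n + 1) * (M * M) < R)
    (a : FreeAlgebra F (Fin n)) (ha : Small N a) (ha0 : a ≠ 0) :
    FreeAlgebra.lift F (fun i : Fin n => matT F (n + 1) M R i) a ≠ 0 := by
  classical
  intro hzero
  have hc : 0 < n + 1 := Nat.succ_pos n
  let φ : PowerSeries F →+* FractionRing (PowerSeries F) := algebraMap _ _
  have hφ : Function.Injective φ := IsFractionRing.injective _ _
  let ψ : F →+* FractionRing (PowerSeries F) := φ.comp PowerSeries.C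
  let y : FreeAlgebra F (Fin n) → PowerSeries (PowerSeries F) := fun x =>
    FreeAlgebra.lift F (fun i : Fin n => opS F (n + 1) i) x 1
  have hy_add : ∀ x x', y (x + x') = y x + y x' := fun x x' => by simp [y]
  have hy_smul : ∀ (r : F) x, y (r • x) = r • y x := fun r x => by simp [y]
  have hy_cons : ∀ i w, y (wd F (i :: w)) = opS F (n + 1) i (y (wd F w)) := fun i w => by simp [y]
  have hy_nil : y (wd F []) = 1 := by simp [y]
  have hgood : ∀ x, Good (n + 1) (y x) := by
    intro x
    induction x using induction_wd with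
    | h0 => simpa [y] using good_zero (F := F) (n + 1)
    | hw w =>
      induction w with
      | nil => rw [hy_nil]; exact good_one _
      | cons i w ih => rw [hy_cons]; exact ih.opS (by have := i.2; omega)
    | hadd x x' h h' => rw [hy_add]; exact h.add h'
    | hsmul r x h => rw [hy_smul]; exact h.smul r
  let Λ : List (Fin n) → PowerSeries (FractionRing (PowerSeries F)) := fun w =>
    PowerSeries.map φ (y (wd F w))
  have hell : ∀ x, ell Λ (kap ψ x) = PowerSeries.map φ (y x) := by
    intro x
    induction x using induction_wd with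
    | h0 => simp [kap_zero, y]
    | hw w => rw [kap_wd, ell_single]; simp [Λ]
    | hadd x x' h h' => rw [kap_add, map_add, h, h', hy_add, map_add]
    | hsmul r x h =>
      rw [kap_smul, ell_smul, h, hy_smul, coe_C]
      ext1 m
      rw [PowerSeries.coeff_C_mul, PowerSeries.coeff_map, PowerSeries.coeff_map,
        PowerSeries.coeff_smul, PowerSeries.smul_eq_C_mul, map_mul]
      rfl
  set t : FractionRing (PowerSeries F) := φ PowerSeries.X with ht
  have ht0 : t ≠ 0 := fun h => PowerSeries.X_ne_zero (hφ (by rw [← ht, h, map_zero]))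
  have htinj : Function.Injective fun k : ℤ => t ^ k := by
    apply zpow_injective_of_pow ht0
    intro k hk
    by_contra hk0
    have h1 : (PowerSeries.X : PowerSeries F) ^ k = 1 := hφ (by rw [map_pow, map_one, ← ht, hk])
    have h2 := congrArg PowerSeries.constantCoeff h1
    simp [hk0] at h2
  have hq0 : t ^ (n + 1) ≠ 0 := pow_ne_zero _ ht0
  have hq : Function.Injective fun k : ℤ => (t ^ (n + 1)) ^ k := by
    intro k l hkl
    simp only [← zpow_natCast, ← zpow_mul] at hkl
    have := htinj hkl
    exact mul_left_cancel₀ (by positivity) this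
  have hb : ∀ (i j : Fin n) (k : ℤ), t ^ (j : ℕ) * (t ^ (n + 1)) ^ k = t ^ (i : ℕ) → j = i := by
    intro i j k h
    simp only [← zpow_natCast, ← zpow_mul, ← zpow_add₀ ht0] at h
    have h1 := htinj h
    have hi := i.2
    have hj := j.2
    apply Fin.ext
    have hk : k = 0 := by
      rcases lt_trichotomy k 0 with h2 | h2 | h2
      · exfalso; push_cast at h1; nlinarith
      · exact h2
      · exfalso; push_cast at h1; nlinarith
    subst hk
    simpa using h1
  obtain ⟨G, hG1, hG2, hG3⟩ := ha
  obtain ⟨m, hm, hne⟩ := zero_estimate (ι := Fin n) hq0 hq (b := fun i => t ^ (i : ℕ))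
    (fun i => pow_ne_zero _ ht0) hb Λ (by simp only [Λ, hy_nil, map_one])
    (fun i w => by
      have h1 := congrArg (PowerSeries.map φ) (opS_eqn hc i (y (wd F w)))
      simp only [map_mul, map_sub, map_one, PowerSeries.map_C, PowerSeries.map_X, map_pow,
        ← PowerSeries.rescale_map, ← ht] at h1
      simpa only [Λ, hy_cons, map_pow] using h1)
    (G.image (kap ψ)) N (Finset.card_image_le.trans hG1)
    (fun g hg => by
      obtain ⟨x, hx, rfl⟩ := Finset.mem_image.mp hg
      rw [psi_kap]
      refine Submodule.sub_mem _ (Submodule.smul_mem _ _ ?_)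
        (Submodule.sum_mem _ fun i _ => Submodule.smul_mem _ _ ?_)
      · exact kap_mem_span ψ G x (Submodule.subset_span hx)
      · exact kap_mem_span ψ G _ (hG2 x hx i))
    (kap ψ a) (kap_mem_span ψ G a hG3) (kap_ne_zero ψ ha0) (fun w => natDegree_C _) M
    (by simpa using hM)
  apply hne
  rw [hell, PowerSeries.coeff_map]
  have hmR : (n + 1) * (m * (m + 1)) < R :=
    lt_of_le_of_lt (Nat.mul_le_mul_left _ (Nat.mul_le_mul hm.le hm)) hR
  rw [(hgood a).eq_zero hc m R hmR, map_zero]
  intro l hl
  have h1 := trunc2_lift hc M R (fun i : Fin n => (i : ℕ)) a 1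
  rw [hzero, Matrix.zero_mulVec] at h1
  have hR0 : 0 < R := by omega
  have h2 := congrFun h1 ⟨l + R * m, by nlinarith⟩
  simp only [trunc2, Pi.zero_apply] at h2
  rw [Nat.add_mul_div_left _ _ hR0, Nat.div_eq_of_lt hl, zero_add, Nat.add_mul_mod_self_left,
    Nat.mod_eq_of_lt hl] at h2
  exact h2

end Vale.Agent.P314
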