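import Vale.Agent.P314.StackProg

/-!
A loop language on natural-number inputs whose programs all run in polynomial time on a stack
machine. The value of a program used as a number is the length of its output.
-/

open Function Turing

namespace Vale.Agent.P314

/-- Programs of the loop language; variables are de Bruijn indices. -/
inductive Cmd
  | nil
  | out (b : Bool)
  | var (i : ℕ)
  | seq (a b : Cmd)
  | sub (a b : Cmd)
  | rep (a b : Cmd)
  | letv (a b : Cmd)

/-- The output of a program. -/
def Cmd.run : Cmd → List ℕ → List Bool
  | .nil, _ => []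
  | .out b, _ => [b]
  | .var i, env => List.replicate (env.getD i 0) true
  | .seq a b, env => a.run env ++ b.run env
  | .sub a b, env => List.replicate ((a.run env).length - (b.run env).length) true
  | .rep a b, env => (List.range (a.run env).length).flatMap fun j => b.run (j :: env)
  | .letv a b, env => b.run ((a.run env).length :: env)

/-- A bound for the running time of the compiled program. -/
def Cmd.cost : Cmd → List ℕ → ℕ
  | .nil, _ => 0
  | .out _, _ => 0
  | .var i, env => 2 * env.getD i 0 + 2
  | .seq a b, env => a.cost env + b.cost env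
  | .sub a b, env => a.cost env + b.cost env + (b.run env).length + (a.run env).length + 2
  | .rep a b, env =>
      a.cost env + (∑ j ∈ Finset.range (a.run env).length, (b.cost (j :: env) + 1) + 1)
  | .letv a b, env => a.cost env + b.cost ((a.run env).length :: env) + (a.run env).length + 1

/-- Output as bits, or in unary. -/
def mode (u : Bool) (L : List Bool) : List Bool := if u then List.replicate L.length true else L

lemma mode_append (u : Bool) (L L' : List Bool) : mode u (L ++ L') = mode u L ++ mode u L' := by
  cases u <;> simp [mode]

lemma mode_replicate (u : Bool) (v : ℕ) :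
    mode u (List.replicate v true) = List.replicate v true := by
  cases u <;> simp [mode]

lemma mode_true (L : List Bool) : mode true L = List.replicate L.length true := rfl

/-- Compilation: `loc` lists the stacks holding the variables, the stacks from `p` on are free,
the output goes to stack `tgt`. -/
def Cmd.code : Cmd → List ℕ → ℕ → ℕ → Bool → Prog
  | .nil, _, _, _, _ => .skip
  | .out b, _, _, tgt, u => .push tgt (u || b)
  | .var i, loc, p, tgt, _ =>
      match loc[i]? with
      | none => .skip
      | some x => .seq (.loop x (.seq (.push tgt true) (.push p true))) (.loop p (.push x true))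
  | .seq a b, loc, p, tgt, u => .seq (b.code loc p tgt u) (a.code loc p tgt u)
  | .sub a b, loc, p, tgt, _ =>
      .seq (a.code loc (p + 1) p true) (.seq (b.code loc (p + 2) (p + 1) true)
        (.seq (.loop (p + 1) (.pop p)) (.loop p (.push tgt true))))
  | .rep a b, loc, p, tgt, u =>
      .seq (a.code loc (p + 1) p true) (.loop p (b.code (p :: loc) (p + 1) tgt u))
  | .letv a b, loc, p, tgt, u =>
      .seq (a.code loc (p + 1) p true)
        (.seq (b.code (p :: loc) (p + 1) tgt u) (.loop p .skip))

/-- Runs within a time bound. -/
def Run (p : Prog) (S S' : St) (c : ℕ) : Prop := ∃ c' ≤ c, Ex p S S' c'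

lemma Ex.run {p : Prog} {S S' : St} {c : ℕ} (h : Ex p S S' c) : Run p S S' c := ⟨c, le_rfl, h⟩

lemma Run.seq {p q : Prog} {S S' S'' : St} {c c' : ℕ} (h : Run p S S' c) (h' : Run q S' S'' c') :
    Run (.seq p q) S S'' (c + c') := by
  obtain ⟨a, ha, h⟩ := h
  obtain ⟨b, hb, h'⟩ := h'
  exact ⟨a + b, by omega, h.seq h'⟩

lemma Run.cast {p : Prog} {S S' T T' : St} {c c' : ℕ} (h : Run p S S' c) (h1 : S = T)
    (h2 : S' = T') (h3 : c ≤ c') : Run p T T' c' := by
  obtain ⟨a, ha, h⟩ := h
  exact ⟨a, by omega, h.cast h1 h2 rfl⟩

lemma Run.loop_count {k : ℕ} {p : Prog} (Sf : ℕ → St) (cf : ℕ → ℕ) (rest : List Bool)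
    (hrest : rest.head? ≠ some true) (N : ℕ)
    (hk : ∀ j ≤ N, Sf j k = List.replicate j true ++ rest)
    (hs : ∀ j < N, Run p (update (Sf (j + 1)) k (List.replicate j true ++ rest)) (Sf j) (cf j)) :
    Run (.loop k p) (Sf N) (Sf 0) (∑ j ∈ Finset.range N, (cf j + 1) + 1) := by
  choose! cf' hle hex using hs
  refine ⟨_, ?_, Ex.loop_count Sf cf' rest hrest N hk hex⟩
  have : ∑ j ∈ Finset.range N, (cf' j + 1) ≤ ∑ j ∈ Finset.range N, (cf j + 1) :=
    Finset.sum_le_sum fun j hj => by have := hle j (Finset.mem_range.mp hj); omega
  omega

lemma run_move {x y : ℕ} (hxy : x ≠ y) (S : St) (v : ℕ) (rest : List Bool)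
    (hrest : rest.head? ≠ some true) (hx : S x = List.replicate v true ++ rest) :
    Run (.loop x (.push y true)) S
      (update (update S x rest) y (List.replicate v true ++ S y)) (v + 1) := by
  refine (Run.loop_count (k := x) (p := .push y true)
    (fun j => update (update S x (List.replicate j true ++ rest)) y
      (List.replicate (v - j) true ++ S y)) (fun _ => 0) rest hrest v
    (fun j _ => by simp [update_of_ne hxy]) (fun j hj => ?_)).cast ?_ (by simp) (by simp)
  · refine (Ex.push y true _).run.cast rfl ?_ le_rfl
    funext k
    have : v - j = (v - (j + 1)) + 1 := by omega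
    by_cases h1 : k = y
    · subst h1; simp [update_of_ne hxy.symm, this, List.replicate_succ]
    · by_cases h2 : k = x
      · subst h2; simp [update_of_ne h1]
      · simp [update_of_ne h1, update_of_ne h2]
  · simp [← hx]

lemma run_move2 {x y z : ℕ} (hxy : x ≠ y) (hxz : x ≠ z) (hyz : y ≠ z) (S : St) (v : ℕ)
    (hx : S x = List.replicate v true) :
    Run (.loop x (.seq (.push y true) (.push z true))) S
      (update (update (update S x []) y (List.replicate v true ++ S y)) z
        (List.replicate v true ++ S z)) (v + 1) := by
  refine (Run.loop_count (k := x) (p := .seq (.push y true) (.push z true))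
    (fun j => update (update (update S x (List.replicate j true)) y
      (List.replicate (v - j) true ++ S y)) z (List.replicate (v - j) true ++ S z))
    (fun _ => 0) [] (by simp) v
    (fun j _ => by simp [update_of_ne hxy, update_of_ne hxz]) (fun j hj => ?_)).cast ?_
    (by simp) (by simp)
  · refine ((Ex.push y true _).seq (Ex.push z true _)).run.cast rfl ?_ le_rfl
    funext k
    have : v - j = (v - (j + 1)) + 1 := by omega
    by_cases h0 : k = z
    · subst h0; simp [update_of_ne hxz.symm, update_of_ne hyz.symm, this, List.replicate_succ]
    · by_cases h1 : k = y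
      · subst h1; simp [update_of_ne hxy.symm, update_of_ne h0, this, List.replicate_succ]
      · by_cases h2 : k = x
        · subst h2; simp [update_of_ne h1, update_of_ne h0]
        · simp [update_of_ne h0, update_of_ne h1, update_of_ne h2]
  · simp [← hx]

lemma run_drop {x y : ℕ} (hxy : x ≠ y) (S : St) (v : ℕ) (hx : S x = List.replicate v true) :
    Run (.loop x (.pop y)) S (update (update S x []) y ((S y).drop v)) (v + 1) := by
  refine (Run.loop_count (k := x) (p := .pop y)
    (fun j => update (update S x (List.replicate j true)) y ((S y).drop (v - j)))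
    (fun _ => 0) [] (by simp) v
    (fun j _ => by simp [update_of_ne hxy]) (fun j hj => ?_)).cast ?_ (by simp) (by simp)
  · refine (Ex.pop y _).run.cast rfl ?_ le_rfl
    funext k
    have : v - j = (v - (j + 1)) + 1 := by omega
    by_cases h1 : k = y
    · subst h1; simp [update_of_ne hxy.symm, this]
    · by_cases h2 : k = x
      · subst h2; simp [update_of_ne h1]
      · simp [update_of_ne h1, update_of_ne h2]
  · simp [← hx]

lemma run_clear (x : ℕ) (S : St) (v : ℕ) (hx : S x = List.replicate v true) :
    Run (.loop x .skip) S (update S x []) (v + 1) := by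
  refine (Run.loop_count (k := x) (p := .skip)
    (fun j => update S x (List.replicate j true)) (fun _ => 0) [] (by simp) v
    (fun j _ => by simp) (fun j _ => ?_)).cast ?_ (by simp) (by simp)
  · exact (Ex.skip _).run.cast rfl (by simp) le_rfl
  · simp [← hx]

/-- The variables are stored in unary and the stacks from `p` on are empty. -/
structure Pre (S : St) (env loc : List ℕ) (p tgt : ℕ) : Prop where
  vars : List.Forall₂ (fun v x => S x = List.replicate v true ∧ x < p ∧ x ≠ tgt) env loc
  free : ∀ k, p ≤ k → S k = []
  tgt_lt : tgt < p

lemma Pre.update_tgt {S : St} {env loc : List ℕ} {p tgt : ℕ} (h : Pre S env loc p tgt)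
    (L : List Bool) : Pre (update S tgt L) env loc p tgt where
  vars := h.vars.imp fun _ _ hx => ⟨by rw [update_of_ne hx.2.2]; exact hx.1, hx.2⟩
  free k hk := by rw [update_of_ne (by have := h.tgt_lt; omega)]; exact h.free k hk
  tgt_lt := h.tgt_lt

lemma Pre.fresh {S : St} {env loc : List ℕ} {p tgt : ℕ} (h : Pre S env loc p tgt) :
    Pre S env loc (p + 1) p where
  vars := h.vars.imp fun _ _ hx => ⟨hx.1, by omega, by omega⟩
  free k hk := h.free k (by omega)
  tgt_lt := by omega

lemma Pre.fresh2 {S : St} {env loc : List ℕ} {p tgt : ℕ} (h : Pre S env loc p tgt)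
    (L : List Bool) : Pre (update S p L) env loc (p + 2) (p + 1) where
  vars := h.vars.imp fun _ _ hx =>
    ⟨by rw [update_of_ne (by omega)]; exact hx.1, by omega, by omega⟩
  free k hk := by rw [update_of_ne (by omega)]; exact h.free k (by omega)
  tgt_lt := by omega

lemma Pre.bind {S : St} {env loc : List ℕ} {p tgt : ℕ} (h : Pre S env loc p tgt) (j : ℕ) :
    Pre (update S p (List.replicate j true)) (j :: env) (p :: loc) (p + 1) tgt where
  vars := List.Forall₂.cons ⟨by simp, by omega, by have := h.tgt_lt; omega⟩
    (h.vars.imp fun _ _ hx => ⟨by rw [update_of_ne (by omega)]; exact hx.1, by omega, hx.2.2⟩)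
  free k hk := by rw [update_of_ne (by omega)]; exact h.free k (by omega)
  tgt_lt := by have := h.tgt_lt; omega

lemma forall₂_getElem? {R : ℕ → ℕ → Prop} {env loc : List ℕ} (h : List.Forall₂ R env loc) :
    ∀ i : ℕ, match loc[i]? with
      | none => env.getD i 0 = 0
      | some x => R (env.getD i 0) x := by
  induction h with
  | nil => intro i; simp
  | cons h1 _ ih =>
    intro i
    cases i with
    | zero => simpa using h1
    | succ i => simpa using ih i

theorem Cmd.code_run (c : Cmd) : ∀ (env loc : List ℕ) (p tgt : ℕ) (u : Bool) (S : St),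
    Pre S env loc p tgt →
    Run (c.code loc p tgt u) S (update S tgt (mode u (c.run env) ++ S tgt)) (c.cost env) := by
  induction c with
  | nil =>
    intro env loc p tgt u S _
    exact (Ex.skip S).run.cast rfl (by cases u <;> simp [Cmd.run, mode]) (Nat.zero_le _)
  | out b =>
    intro env loc p tgt u S _
    exact (Ex.push tgt (u || b) S).run.cast rfl (by cases u <;> simp [Cmd.run, mode])
      (Nat.zero_le _)
  | var i =>
    intro env loc p tgt u S h
    have h1 := forall₂_getElem? h.vars i
    have ht := h.tgt_lt
    simp only [Cmd.code, Cmd.run, Cmd.cost, mode_replicate]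
    cases hx : loc[i]? with
    | none =>
      rw [hx] at h1
      simp only at h1 ⊢
      rw [h1]
      exact (Ex.skip S).run.cast rfl (by simp) (Nat.zero_le _)
    | some x =>
      rw [hx] at h1
      obtain ⟨h2, h3, h4⟩ := h1
      have hp := h.free p le_rfl
      refine ((run_move2 h4 (by omega : x ≠ p) (by omega : tgt ≠ p) S _ h2).seq
        (run_move (by omega : p ≠ x) _ (env.getD i 0) [] (by simp) (by simp [hp]))).cast rfl ?_
        (by omega)
      funext k
      by_cases e1 : k = x
      · subst e1
        simp [update_of_ne h4, update_of_ne (by omega : k ≠ p), h2]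
      · by_cases e2 : k = p
        · subst e2
          simp [update_of_ne e1, update_of_ne (by omega : k ≠ tgt), hp]
        · by_cases e3 : k = tgt
          · subst e3; simp [update_of_ne e1, update_of_ne e2]
          · simp [update_of_ne e1, update_of_ne e2, update_of_ne e3]
  | seq a b iha ihb =>
    intro env loc p tgt u S h
    refine ((ihb env loc p tgt u S h).seq (iha env loc p tgt u _ (h.update_tgt _))).cast rfl ?_
      (by simp only [Cmd.cost]; omega)
    simp [Cmd.run, mode_append]
  | sub a b iha ihb =>
    intro env loc p tgt u S h
    have ht := h.tgt_lt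
    have hp := h.free p le_rfl
    have hp1 := h.free (p + 1) (by omega)
    have r1 := iha env loc (p + 1) p true S h.fresh
    have r2 := ihb env loc (p + 2) (p + 1) true _ (h.fresh2 (mode true (a.run env) ++ S p))
    have r3 := run_drop (by omega : p + 1 ≠ p)
      (update (update S p (mode true (a.run env) ++ S p)) (p + 1) (mode true (b.run env) ++
        update S p (mode true (a.run env) ++ S p) (p + 1))) (b.run env).length
      (by simp [mode_true, hp1])
    refine (r1.seq (r2.seq (r3.seq (run_move (by omega : p ≠ tgt) _
      ((a.run env).length - (b.run env).length) [] (by simp)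
      (by simp [mode_true, hp]))))).cast rfl ?_ (by simp only [Cmd.cost]; omega)
    funext k
    simp only [Cmd.run, mode_replicate]
    by_cases e1 : k = tgt
    · subst e1
      simp [update_of_ne (by omega : k ≠ p), update_of_ne (by omega : k ≠ p + 1)]
    · by_cases e2 : k = p
      · subst e2; simp [update_of_ne e1, hp]
      · by_cases e3 : k = p + 1
        · subst e3; simp [update_of_ne e1, hp1]
        · simp [update_of_ne e1, update_of_ne e2, update_of_ne e3]
  | rep a b iha ihb =>
    intro env loc p tgt u S h
    have ht := h.tgt_lt
    have hp := h.free p le_rfl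
    have r1 := iha env loc (p + 1) p true S h.fresh
    set N := (a.run env).length with hN
    have r2 := Run.loop_count (k := p) (p := b.code (p :: loc) (p + 1) tgt u)
      (fun j => update (update S tgt
        (mode u ((List.range' j (N - j)).flatMap fun l => b.run (l :: env)) ++ S tgt)) p
        (List.replicate j true)) (fun j => b.cost (j :: env)) [] (by simp) N
      (fun j _ => by simp) (fun j hj => by
        refine (ihb (j :: env) (p :: loc) (p + 1) tgt u _ ((h.update_tgt
          (mode u ((List.range' (j + 1) (N - (j + 1))).flatMap fun l => b.run (l :: env)) ++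
            S tgt)).bind j)).cast (by simp) ?_ le_rfl
        have : N - j = (N - (j + 1)) + 1 := by omega
        rw [this, List.range'_succ, List.flatMap_cons, mode_append,
          update_of_ne (by omega : tgt ≠ p), update_self, update_comm (by omega : p ≠ tgt),
          update_idem, List.append_assoc])
    refine (r1.seq (r2.cast ?_ rfl le_rfl)).cast rfl ?_ le_rfl
    · cases u <;> simp [mode, hp, hN]
    · rw [Nat.sub_zero, ← List.range_eq_range']
      simp only [Cmd.run, ← hN, List.replicate_zero]
      rw [update_eq_self_iff, update_of_ne (by omega : p ≠ tgt), hp]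
  | letv a b iha ihb =>
    intro env loc p tgt u S h
    have ht := h.tgt_lt
    have hp := h.free p le_rfl
    have r1 := iha env loc (p + 1) p true S h.fresh
    have r2 := ihb ((a.run env).length :: env) (p :: loc) (p + 1) tgt u _
      (h.bind (a.run env).length)
    refine (r1.seq ((r2.seq (run_clear p _ (a.run env).length
      (by simp [update_of_ne (by omega : p ≠ tgt)]))).cast (by simp [mode_true, hp]) rfl
      le_rfl)).cast rfl ?_ (by simp only [Cmd.cost]; omega)
    rw [update_of_ne (by omega : tgt ≠ p), update_comm (by omega : p ≠ tgt), update_idem,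
      update_eq_self_iff.mpr]
    · rfl
    · rw [update_of_ne (by omega : p ≠ tgt), hp]

theorem Cmd.poly_bound (c : Cmd) : ∃ P : Polynomial ℕ, ∀ (env : List ℕ) (B : ℕ),
    (∀ x ∈ env, x ≤ B) → (c.run env).length ≤ P.eval B ∧ c.cost env ≤ P.eval B := by
  induction c with
  | nil => exact ⟨0, fun env B _ => by simp [Cmd.run, Cmd.cost]⟩
  | out b => exact ⟨1, fun env B _ => by simp [Cmd.run, Cmd.cost]⟩
  | var i =>
    refine ⟨2 * Polynomial.X + 2, fun env B h => ?_⟩
    have : env.getD i 0 ≤ B := by
      rw [List.getD_eq_getElem?_getD]
      cases hx : env[i]? with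
      | none => simp
      | some x => exact h x (List.mem_of_getElem? hx)
    simp only [Cmd.run, Cmd.cost, List.length_replicate, Polynomial.eval_add, Polynomial.eval_mul,
      Polynomial.eval_ofNat, Polynomial.eval_X]
    omega
  | seq a b iha ihb =>
    obtain ⟨P, hP⟩ := iha
    obtain ⟨Q, hQ⟩ := ihb
    refine ⟨P + Q, fun env B h => ?_⟩
    have h1 := hP env B h
    have h2 := hQ env B h
    simp only [Cmd.run, Cmd.cost, List.length_append, Polynomial.eval_add]
    omega
  | sub a b iha ihb =>
    obtain ⟨P, hP⟩ := iha
    obtain ⟨Q, hQ⟩ := ihb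
    refine ⟨2 * P + 2 * Q + 2, fun env B h => ?_⟩
    have h1 := hP env B h
    have h2 := hQ env B h
    simp only [Cmd.run, Cmd.cost, List.length_replicate, Polynomial.eval_add, Polynomial.eval_mul,
      Polynomial.eval_ofNat]
    omega
  | rep a b iha ihb =>
    obtain ⟨P, hP⟩ := iha
    obtain ⟨Q, hQ⟩ := ihb
    refine ⟨P + P * (Q.comp (Polynomial.X + P) + 1) + 1, fun env B h => ?_⟩
    have h1 := hP env B h
    have h2 : ∀ j < (a.run env).length, (b.run (j :: env)).length ≤ Q.eval (B + P.eval B) ∧
        b.cost (j :: env) ≤ Q.eval (B + P.eval B) := by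
      intro j hj
      apply hQ
      intro x hx
      rcases List.mem_cons.mp hx with rfl | hx
      · omega
      · have := h x hx; omega
    have h3 : ∑ j ∈ Finset.range (a.run env).length, (b.cost (j :: env) + 1) ≤
        P.eval B * (Q.eval (B + P.eval B) + 1) := by
      refine (Finset.sum_le_card_nsmul _ _ (Q.eval (B + P.eval B) + 1) fun j hj => ?_).trans ?_
      · have := (h2 j (Finset.mem_range.mp hj)).2; omega
      · rw [Finset.card_range, smul_eq_mul]
        exact Nat.mul_le_mul_right _ h1.1
    have h4 : ((List.range (a.run env).length).flatMap fun j => b.run (j :: env)).length ≤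
        P.eval B * (Q.eval (B + P.eval B) + 1) := by
      rw [List.length_flatMap]
      refine (List.sum_le_card_nsmul _ (Q.eval (B + P.eval B) + 1) fun x hx => ?_).trans ?_
      · obtain ⟨j, hj, rfl⟩ := List.mem_map.mp hx
        have := (h2 j (List.mem_range.mp hj)).1; omega
      · rw [List.length_map, List.length_range, smul_eq_mul]
        exact Nat.mul_le_mul_right _ h1.1
    simp only [Cmd.run, Cmd.cost, Polynomial.eval_add, Polynomial.eval_mul, Polynomial.eval_one,
      Polynomial.eval_comp, Polynomial.eval_X]
    omega
  | letv a b iha ihb =>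
    obtain ⟨P, hP⟩ := iha
    obtain ⟨Q, hQ⟩ := ihb
    refine ⟨2 * P + Q.comp (Polynomial.X + P) + 1, fun env B h => ?_⟩
    have h1 := hP env B h
    have h2 := hQ ((a.run env).length :: env) (B + P.eval B) (by
      intro x hx
      rcases List.mem_cons.mp hx with rfl | hx
      · omega
      · have := h x hx; omega)
    simp only [Cmd.run, Cmd.cost, Polynomial.eval_add, Polynomial.eval_mul, Polynomial.eval_one,
      Polynomial.eval_comp, Polynomial.eval_X, Polynomial.eval_ofNat]
    omega

/-- Every program of the loop language in two inputs, given in unary, is computed by a stack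
machine in polynomial time. -/
theorem Cmd.polyTime (c : Cmd) : Nonempty (TM2ComputableInPolyTime
    (fun x : ℕ × ℕ => List.replicate x.1 true ++ false :: List.replicate x.2 true) id
    fun x : ℕ × ℕ => c.run [x.1, x.2]) := by
  obtain ⟨P, hP⟩ := c.poly_bound
  let pr : Prog := .seq (.loop 1 (.push 2 true)) (.seq (.pop 1) (.seq (c.code [2, 1] 3 0 false)
    (.seq (.loop 2 .skip) (.loop 1 .skip))))
  have key : ∀ x : ℕ × ℕ, Run pr (only 1 (List.replicate x.1 true ++ false ::
      List.replicate x.2 true)) (only 0 (c.run [x.1, x.2]))
      (P.eval (x.1 + x.2 + 1) + 2 * (x.1 + x.2 + 1) + 1) := by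
    rintro ⟨n, s⟩
    let S1 : St := fun k => if k = 1 then List.replicate s true else
      if k = 2 then List.replicate n true else []
    have r1 := run_move (by omega : 1 ≠ 2) (only 1 (List.replicate n true ++ false ::
      List.replicate s true)) n (false :: List.replicate s true) (by simp) (by simp [only])
    have r3 := c.code_run [n, s] [2, 1] 3 0 false S1
      ⟨by simp [S1], fun k hk => by
        have e1 : k ≠ 1 := by omega
        have e2 : k ≠ 2 := by omega
        simp [S1, e1, e2], by omega⟩
    have hc := (hP [n, s] (n + s + 1) (by simp; omega)).2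
    refine (r1.seq ((Ex.pop 1 _).run.seq ((r3.seq ((run_clear 2 _ n (by simp [S1])).seq
      (run_clear 1 _ s (by simp [S1])))).cast ?_ rfl le_rfl))).cast rfl ?_ (by simp only; omega)
    · funext k
      by_cases e1 : k = 1
      · subst e1; simp [S1]
      · by_cases e2 : k = 2
        · subst e2; simp [S1, only]
        · simp [S1, only, e1, e2]
    · funext k
      by_cases e1 : k = 1
      · subst e1; simp [only]
      · by_cases e2 : k = 2
        · subst e2; simp [only]
        · by_cases e0 : k = 0
          · subst e0; simp [only, S1, mode]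
          · simp [S1, only, e0, e1, e2]
  choose cf hle hex using key
  refine ⟨{ tm := machine pr
            inputAlphabet := Equiv.refl Bool
            outputAlphabet := Equiv.refl Bool
            time := P + 2 * Polynomial.X + 2
            outputsFun := fun x => ?_ }⟩
  have h := machine_outputs pr _ _ (cf x) ((P + 2 * Polynomial.X + 2 : Polynomial ℕ).eval
    (List.replicate x.1 true ++ false :: List.replicate x.2 true).length) (hex x) (by
      have := hle x
      simp only [List.length_append, List.length_replicate, List.length_cons, Polynomial.eval_add,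
        Polynomial.eval_mul, Polynomial.eval_ofNat, Polynomial.eval_X, ← add_assoc]
      omega)
  have e : ∀ L : List Bool, List.map (Equiv.refl Bool).invFun L = L := fun L => List.map_id L
  exact (e _).symm ▸ (e _).symm ▸ h

end Vale.Agent.P314
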