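import Vale.Agent.P314.Defs
import Vale.Agent.P314.Hit
import Vale.Agent.P314.LoopLang

/-!
The explicit tuple, and the loop program that prints it.
-/

universe u

namespace Vale.Agent.P314

/-- Truncation order in `z`. -/
def ordM (n s : ℕ) : ℕ := (s + s) * ((s + s) * n) + 1

/-- Truncation order in `t`. -/
def ordR (n s : ℕ) : ℕ := (n + 1) * (ordM n s * ordM n s) + 1

/-- The explicit tuple of zero-one matrices. -/
def pt (F : Type u) [Field F] (n s : ℕ) : Point F n :=
  ⟨ordM n s * ordR n s, fun i => matT F (n + 1) (ordM n s) (ordR n s) i⟩

theorem pt_hits {F : Type u} [Field F] (n s : ℕ) (a : FreeAlgebra F (Fin n))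
    (ha : Small (s + s) a) (ha0 : a ≠ 0) : (pt F n s).eval a ≠ 0 :=
  hit n (s + s) (ordM n s) (ordR n s) (Nat.lt_succ_self _) (Nat.lt_succ_self _) a ha ha0

lemma Formula.small {F : Type u} [Field F] {n : ℕ} (φ : Formula F n) :
    Small (φ.size + φ.size) φ.poly := by
  induction φ with
  | var i => exact small_var i
  | const a => exact (small_const a).mono (by simp [Formula.size])
  | add φ ψ h h' => exact (h.add h').mono (by simp only [Formula.size]; omega)
  | mul φ ψ h h' => exact (h.mul h').mono (by simp only [Formula.size]; omega)

theorem pt_isHittingSet (F : Type u) [Field F] (n s : ℕ) : IsHittingSet s [pt F n s] :=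
  fun φ hs h0 => ⟨pt F n s, List.mem_singleton.mpr rfl,
    pt_hits n s _ (φ.small.mono (by omega)) h0⟩

open Cmd

/-- Print a fixed string. -/
def lit : List Bool → Cmd
  | [] => nil
  | b :: L => seq (out b) (lit L)

lemma run_lit (L : List Bool) (env : List ℕ) : (lit L).run env = L := by
  induction L with
  | nil => rfl
  | cons b L ih => simp [lit, Cmd.run, ih]

/-- The number one. -/
def one : Cmd := out true

/-- Test of the linear equation defining an entry. -/
def eqTest : Cmd :=
  letv (seq (var 2) (seq (rep (var 6) (sub (sub (var 6) one) (var 4)))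
      (rep (rep (seq (var 11) one) (var 6)) (var 1))))
    (sub one (seq (sub (var 0) (var 5)) (sub (var 5) (var 0))))

/-- Nonzero exactly when the entry is one. -/
def cnt : Cmd := rep (sub (var 3) (var 1)) (rep (seq (var 3) one) eqTest)

/-- Print one entry. -/
def entry (e0 e1 : List Bool) : Cmd :=
  letv cnt (seq (rep (sub one (var 0)) (lit e0)) (rep (sub one (sub one (var 0))) (lit e1)))

/-- Print all the entries. -/
def body (e0 e1 : List Bool) : Cmd :=
  rep (var 4) (rep (var 3) (rep (var 3) (rep (var 5) (rep (var 5) (entry e0 e1)))))

/-- The generator. -/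
def gen (e0 e1 : List Bool) : Cmd :=
  letv (seq (var 1) (var 1))
    (letv (seq (rep (var 0) (rep (var 1) (var 3))) one)
      (letv (seq (rep (seq (var 2) one) (rep (var 1) (var 2))) one)
        (letv (rep (var 1) (var 1))
          (seq (var 0) (seq (out false) (body e0 e1))))))

lemma length_flatMap_const {α : Type*} (m v : ℕ) (g : ℕ → List α) (hg : ∀ j, (g j).length = v) :
    ((List.range m).flatMap g).length = m * v := by
  rw [List.length_flatMap]
  simp [hg]

lemma eqTest_len (j x l k l' k' i d R M N n s : ℕ) :
    (eqTest.run [j, x, l, k, l', k', i, d, R, M, N, n, s]).length = 0 ↔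
      l + i * (k' - 1 - k) + (n + 1) * k' * j ≠ l' := by
  simp only [eqTest, one, Cmd.run, List.length_replicate, List.length_append, List.getD_cons_succ,
    List.getD_cons_zero, List.length_singleton]
  rw [length_flatMap_const _ (k' - 1 - k) _ (by simp), length_flatMap_const _ j _ (by simp),
    length_flatMap_const _ k' _ (by simp)]
  omega

lemma cnt_len (l k l' k' i d R M N n s : ℕ) :
    (cnt.run [l, k, l', k', i, d, R, M, N, n, s]).length = 0 ↔ ¬ Ent (n + 1) i k' l' k l := by
  simp only [cnt, one, Cmd.run, List.length_replicate, List.length_append, List.getD_cons_succ,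
    List.getD_cons_zero, List.length_singleton, List.length_eq_zero_iff, List.flatMap_eq_nil_iff,
    List.mem_range]
  simp only [← List.length_eq_zero_iff, eqTest_len, Ent]
  constructor
  · rintro h ⟨h1, j, hj, h2⟩
    exact h 0 (by omega) j hj h2
  · intro h x hx j hj h2
    exact h ⟨by omega, j, hj, h2⟩

lemma entry_run (e0 e1 : List Bool) (l k l' k' i d R M N n s : ℕ) :
    (entry e0 e1).run [l, k, l', k', i, d, R, M, N, n, s] =
      if Ent (n + 1) i k' l' k l then e1 else e0 := by
  have h := cnt_len l k l' k' i d R M N n s
  simp only [entry, one, Cmd.run, List.length_replicate, List.getD_cons_zero,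
    List.length_singleton, run_lit]
  split_ifs with hE
  · obtain ⟨v, hv⟩ : ∃ v, (cnt.run [l, k, l', k', i, d, R, M, N, n, s]).length = v + 1 :=
      Nat.exists_eq_succ_of_ne_zero fun h0 => h.mp h0 hE
    simp [hv]
  · simp [h.mpr hE]

lemma flatMap_range_mul {α : Type*} (M R : ℕ) (g : ℕ → ℕ → List α) :
    ((List.range (M * R)).flatMap fun a => g (a / R) (a % R)) =
      (List.range M).flatMap fun k => (List.range R).flatMap fun l => g k l := by
  induction M with
  | zero => simp
  | succ M ih =>
    rw [Nat.succ_mul, List.range_add, List.flatMap_append, ih, List.range_succ,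
      List.flatMap_append, List.flatMap_map, List.flatMap_singleton]
    congr 1
    refine List.flatMap_congr fun l hl => ?_
    have hl' := List.mem_range.mp hl
    have hR : 0 < R := by omega
    rw [Nat.add_comm, Nat.add_mul_div_right _ _ hR, Nat.div_eq_of_lt hl', zero_add,
      Nat.add_mul_mod_self_right, Nat.mod_eq_of_lt hl']

lemma flatMap_finRange {α : Type*} (m : ℕ) (g : ℕ → List α) :
    ((List.finRange m).flatMap fun a : Fin m => g a.val) = (List.range m).flatMap g := by
  rw [← List.map_coe_finRange_eq_range, List.flatMap_map]

theorem gen_run {F : Type u} [Field F] (enc : F → List Bool) (n s : ℕ) :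
    (gen (encodeElem enc 0) (encodeElem enc 1)).run [n, s] = encodeSet enc [pt F n s] := by
  have hM : (List.flatMap (fun _ => List.flatMap (fun _ => List.replicate n true)
      (List.range (s + s))) (List.range (s + s))).length + 1 = ordM n s := by
    rw [length_flatMap_const _ ((s + s) * n) _ fun _ => length_flatMap_const _ n _ (by simp)]
    rfl
  have hR : (List.flatMap (fun _ => List.flatMap (fun _ => List.replicate (ordM n s) true)
      (List.range (ordM n s))) (List.range (n + 1))).length + 1 = ordR n s := by
    rw [length_flatMap_const _ (ordM n s * ordM n s) _ fun _ =>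
      length_flatMap_const _ (ordM n s) _ (by simp)]
    rfl
  have hd : (List.flatMap (fun _ => List.replicate (ordR n s) true)
      (List.range (ordM n s))).length = ordM n s * ordR n s :=
    length_flatMap_const _ _ _ (by simp)
  simp only [gen, body, one, Cmd.run, List.length_replicate, List.length_append,
    List.getD_cons_succ, List.getD_cons_zero, List.length_singleton, hM, hR, hd, entry_run,
    encodeSet, List.flatMap_singleton, encodePoint, pt, matT, Matrix.of_apply,
    List.singleton_append, apply_ite (encodeElem enc)]
  congr 2
  rw [← flatMap_finRange n]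
  refine List.flatMap_congr fun i _ => ?_
  rw [← flatMap_range_mul, ← flatMap_finRange]
  refine List.flatMap_congr fun a _ => ?_
  rw [← flatMap_range_mul, ← flatMap_finRange]

theorem gen_polyTime {F : Type u} [Field F] (enc : F → List Bool) :
    Nonempty (Turing.TM2ComputableInPolyTime encodeInput id
      fun x : ℕ × ℕ => encodeSet enc [pt F x.1 x.2]) := by
  have h := (gen (encodeElem enc 0) (encodeElem enc 1)).polyTime
  simp only [gen_run] at h
  exact h

end Vale.Agent.P314
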