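import Vale.Agent.P314.DefsABP
import Vale.Agent.P314.Gen

/-!
Branching programs have few left quotients.
-/

universe u

namespace Vale.Agent.P314

variable {F : Type u} [Field F] {n : ℕ}

lemma der_affine_mul (i : Fin n) (c : Option (Fin n) → F) (b : FreeAlgebra F (Fin n)) :
    der i (affine c * b) = c none • der i b + c (some i) • b := by
  rw [affine, add_mul, map_add, ← Algebra.smul_def, map_smul, Finset.sum_mul, map_sum]
  congr 1
  simp [der_ι_mul]

lemma layers_small {w : ℕ} (t : Fin w) (Ls : List (Fin w → Fin w → Option (Fin n) → F)) :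
    ∃ G : Finset (FreeAlgebra F (Fin n)), G.card ≤ w * (Ls.length + 1) ∧ Closed G ∧
      ∀ a, (Ls.map fun L => Matrix.of fun a b => affine (L a b)).prod a t ∈
        Submodule.span F (G : Set (FreeAlgebra F (Fin n))) := by
  classical
  induction Ls with
  | nil =>
    refine ⟨{1}, ?_, ?_, fun a => ?_⟩
    · have := t.2
      simp only [Finset.card_singleton, List.length_nil, zero_add, mul_one]
      omega
    · intro g hg i
      rw [Finset.mem_singleton] at hg
      rw [hg, der_one]; exact Submodule.zero_mem _
    · simp only [List.map_nil, List.prod_nil, Matrix.one_apply]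
      split_ifs
      · exact Submodule.subset_span (by simp)
      · exact Submodule.zero_mem _
  | cons L Ls ih =>
    obtain ⟨G, h1, h2, h3⟩ := ih
    set P := (Ls.map fun L => Matrix.of fun a b => affine (L a b)).prod with hP
    set J : Finset (FreeAlgebra F (Fin n)) :=
      G ∪ Finset.univ.image fun a => ((Matrix.of fun a b => affine (L a b)) * P) a t with hJ
    have hG : Submodule.span F (G : Set (FreeAlgebra F (Fin n))) ≤
        Submodule.span F (J : Set (FreeAlgebra F (Fin n))) :=
      Submodule.span_mono (by simp [hJ])
    refine ⟨J, (Finset.card_union_le _ _).trans ?_, ?_, fun a => ?_⟩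
    · have := Finset.card_image_le (s := Finset.univ)
        (f := fun a => ((Matrix.of fun a b => affine (L a b)) * P) a t)
      rw [Finset.card_univ, Fintype.card_fin] at this
      rw [List.length_cons, Nat.mul_succ w (Ls.length + 1)]
      omega
    · intro g hg i
      rcases Finset.mem_union.mp hg with h | h
      · exact hG (h2 g h i)
      · obtain ⟨a, -, rfl⟩ := Finset.mem_image.mp h
        rw [Matrix.mul_apply, map_sum]
        refine Submodule.sum_mem _ fun b _ => ?_
        rw [Matrix.of_apply, der_affine_mul]
        exact hG (Submodule.add_mem _ (Submodule.smul_mem _ _ (h2.der_mem i _ (h3 b)))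
          (Submodule.smul_mem _ _ (h3 b)))
    · rw [List.map_cons, List.prod_cons]
      apply Submodule.subset_span
      simp only [hJ, Finset.coe_union, Finset.coe_image, Set.mem_union, Set.mem_image]
      exact Or.inr ⟨a, by simp, rfl⟩

theorem pt_isHittingSetABP (F : Type u) [Field F] (n s : ℕ) : IsHittingSetABP s [pt F n s] := by
  intro A hs h0
  obtain ⟨G, h1, h2, h3⟩ := layers_small A.sink A.layers
  refine ⟨pt F n s, List.mem_singleton.mpr rfl, pt_hits n s _ ⟨G, ?_, h2, h3 A.source⟩ h0⟩
  have : G.card ≤ A.size := h1
  omega

end Vale.Agent.P314
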