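import Mathlib

/-!
Two lemmas on the dilation `p(z) ↦ p(q z)` of polynomials.
-/

open Polynomial

namespace Vale.Agent.P314

variable {K : Type*} [Field K]

/-- The dilation `p(z) ↦ p(q z)`. -/
noncomputable def dil (q : K) : K[X] →+* K[X] := Polynomial.compRingHom (C q * X)

lemma dil_apply (q : K) (p : K[X]) : dil q p = p.comp (C q * X) := rfl

@[simp] lemma dil_C (q a : K) : dil q (C a) = C a := by simp [dil_apply]

lemma dil_coeff (q : K) (p : K[X]) (k : ℕ) : (dil q p).coeff k = p.coeff k * q ^ k :=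
  comp_C_mul_X_coeff

lemma dil_eval (q x : K) (p : K[X]) : (dil q p).eval x = p.eval (q * x) := by
  simp [dil_apply, eval_comp]

lemma natDegree_dil_le (q : K) (p : K[X]) : (dil q p).natDegree ≤ p.natDegree := by
  rw [natDegree_le_iff_coeff_eq_zero]
  intro k hk
  rw [dil_coeff, coeff_eq_zero_of_natDegree_lt hk, zero_mul]

lemma dil_ne_zero {q : K} (hq : q ≠ 0) {p : K[X]} (hp : p ≠ 0) : dil q p ≠ 0 := by
  intro h
  have := dil_coeff q p p.natDegree
  rw [h, coeff_zero] at this
  exact mul_ne_zero (leadingCoeff_ne_zero.mpr hp) (pow_ne_zero _ hq) this.symm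

lemma leadingCoeff_dil {q : K} (hq : q ≠ 0) (p : K[X]) :
    (dil q p).leadingCoeff = p.leadingCoeff * q ^ p.natDegree := by
  have h1 : (C q * X : K[X]).natDegree ≠ 0 := by
    rw [natDegree_C_mul_X q hq]; exact one_ne_zero
  rw [dil_apply, leadingCoeff_comp h1, leadingCoeff_C_mul_X]

/-- A dilation-invariant quotient of polynomials is a constant. -/
lemma const_of_dil_invariant {q : K} (hq0 : q ≠ 0)
    (hq : Function.Injective fun k : ℤ => q ^ k) {a c : K[X]} (hc : c ≠ 0)
    (h : c * dil q a = dil q c * a) : ∃ e : K, a = C e * c := by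
  have key : ∀ a : K[X], a ≠ 0 → c * dil q a = dil q c * a → a.natDegree = c.natDegree := by
    intro a ha h
    have h1 := congrArg leadingCoeff h
    rw [leadingCoeff_mul, leadingCoeff_mul, leadingCoeff_dil hq0, leadingCoeff_dil hq0] at h1
    have ha' := leadingCoeff_ne_zero.mpr ha
    have hc' := leadingCoeff_ne_zero.mpr hc
    have h2 : q ^ a.natDegree = q ^ c.natDegree := by
      apply mul_left_cancel₀ (mul_ne_zero hc' ha')
      linear_combination h1
    have h3 : ((a.natDegree : ℤ)) = (c.natDegree : ℤ) := by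
      apply hq
      simpa using h2
    exact_mod_cast h3
  refine ⟨a.coeff c.natDegree / c.leadingCoeff, ?_⟩
  by_contra hne
  set e := a.coeff c.natDegree / c.leadingCoeff with he
  have ha' : a - C e * c ≠ 0 := sub_ne_zero.mpr hne
  have h1 : c * dil q (a - C e * c) = dil q c * (a - C e * c) := by
    rw [map_sub, map_mul, dil_C]
    linear_combination h
  have h2 := key _ ha' h1
  apply leadingCoeff_ne_zero.mpr ha'
  rw [leadingCoeff, h2, coeff_sub, coeff_C_mul, he]
  have hc' := leadingCoeff_ne_zero.mpr hc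
  rw [show c.coeff c.natDegree = c.leadingCoeff from rfl]
  field_simp
  ring

variable {ι : Type*} [Fintype ι] [DecidableEq ι]

/-- `∏ (1 - b j z)`. -/
noncomputable def bigQ (b : ι → K) : K[X] := ∏ j, (1 - C (b j) * X)

/-- `∏_{j ≠ i} (1 - b j z)`. -/
noncomputable def smallQ (b : ι → K) (i : ι) : K[X] := ∏ j ∈ Finset.univ.erase i, (1 - C (b j) * X)

lemma bigQ_eq (b : ι → K) (i : ι) : bigQ b = (1 - C (b i) * X) * smallQ b i := by
  rw [bigQ, smallQ, Finset.mul_prod_erase _ (fun j => (1 - C (b j) * X : K[X])) (Finset.mem_univ i)]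

omit [DecidableEq ι] in
lemma bigQ_ne_zero (b : ι → K) : bigQ b ≠ 0 := by
  intro h
  have := congrArg (eval 0) h
  simp [bigQ, eval_prod] at this

lemma natDegree_factor_le (x : K) : (1 - C x * X : K[X]).natDegree ≤ 1 := by
  compute_degree

omit [DecidableEq ι] in
lemma natDegree_bigQ_le (b : ι → K) : (bigQ b).natDegree ≤ Fintype.card ι := by
  refine (natDegree_prod_le _ _).trans ?_
  refine (Finset.sum_le_sum fun j _ => natDegree_factor_le (b j)).trans ?_
  simp

lemma natDegree_X_smallQ_le (b : ι → K) (i : ι) :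
    (X * smallQ b i).natDegree ≤ Fintype.card ι := by
  refine natDegree_mul_le.trans ?_
  have h1 : (smallQ b i).natDegree ≤ Fintype.card ι - 1 := by
    refine (natDegree_prod_le _ _).trans ?_
    refine (Finset.sum_le_sum fun j _ => natDegree_factor_le (b j)).trans ?_
    simp
  have h2 : 0 < Fintype.card ι := Fintype.card_pos_iff.mpr ⟨i⟩
  have h3 : (X : K[X]).natDegree ≤ 1 := natDegree_X_le
  omega

/-- Discrete residues: a dilation difference of a rational function has no isolated simple pole
in a `q`-orbit. -/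
lemma residues_vanish {q : K} (hq0 : q ≠ 0) (hq : Function.Injective fun k : ℤ => q ^ k)
    {b : ι → K} (hb0 : ∀ i, b i ≠ 0) (hb : ∀ i j (k : ℤ), b j * q ^ k = b i → j = i)
    {a c : K[X]} (hc : c ≠ 0) (e : ι → K)
    (h : bigQ b * (c * dil q a - dil q c * a) =
      c * dil q c * ∑ i, C (e i) * (X * smallQ b i)) (i : ι) : e i = 0 := by
  obtain ⟨c', a', g, hrel, rfl, rfl⟩ := UniqueFactorizationMonoid.exists_reduced_factors c hc a
  have hg : g ≠ 0 := left_ne_zero_of_mul hc
  have hc' : c' ≠ 0 := right_ne_zero_of_mul hc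
  have h' : bigQ b * (c' * dil q a' - dil q c' * a') =
      c' * dil q c' * ∑ i, C (e i) * (X * smallQ b i) := by
    apply mul_left_cancel₀ (mul_ne_zero hg (dil_ne_zero hq0 hg))
    simp only [map_mul] at h
    linear_combination h
  have hcop : ∀ x : K, c'.eval x = 0 → a'.eval x ≠ 0 := by
    intro x h1 h2
    exact not_isUnit_X_sub_C x (hrel (dvd_iff_isRoot.mpr h1) (dvd_iff_isRoot.mpr h2))
  by_contra hei
  set ρ : K := (b i)⁻¹ with hρ
  have hρ0 : ρ ≠ 0 := inv_ne_zero (hb0 i)
  have hev : ∀ x : K, (bigQ b).eval x * (c'.eval x * a'.eval (q * x) - c'.eval (q * x) * a'.eval x)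
      = c'.eval x * c'.eval (q * x) * ∑ j, e j * (x * (smallQ b j).eval x) := by
    intro x
    have := congrArg (eval x) h'
    simpa [dil_eval, eval_finsetSum] using this
  have hQ : ∀ k : ℤ, (bigQ b).eval (q ^ k * ρ) = 0 → k = 0 := by
    intro k hk
    rw [bigQ, eval_prod, Finset.prod_eq_zero_iff] at hk
    obtain ⟨j, -, hj⟩ := hk
    have h1 : b j * q ^ k = b i := by
      simp only [eval_sub, eval_one, eval_mul, eval_C, eval_X, hρ] at hj
      have := hb0 i
      field_simp at hj
      linear_combination -hj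
    have h2 := hb i j k h1
    subst h2
    apply hq
    have := hb0 j
    simp only [zpow_zero]
    exact mul_left_cancel₀ this (by rw [h1, mul_one])
  let S : Set ℤ := {k | c'.eval (q ^ k * ρ) = 0}
  have hSfin : S.Finite := by
    have hinj : Function.Injective fun k : ℤ => q ^ k * ρ := fun k l hkl =>
      hq (mul_right_cancel₀ hρ0 hkl)
    have : S = (fun k : ℤ => q ^ k * ρ) ⁻¹' {x | c'.IsRoot x} := rfl
    rw [this]
    exact (finite_setOfPred_isRoot hc').preimage hinj.injOn
  have hSne : S.Nonempty := by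
    have h0 := hev ρ
    have hQ0 : (bigQ b).eval ρ = 0 := by
      rw [bigQ_eq b i]
      simp [hρ, hb0 i]
    have hsum : ∑ j, e j * (ρ * (smallQ b j).eval ρ) = e i * (ρ * (smallQ b i).eval ρ) := by
      apply Finset.sum_eq_single i
      · intro j _ hji
        have : (smallQ b j).eval ρ = 0 := by
          rw [smallQ, eval_prod]
          apply Finset.prod_eq_zero (i := i)
          · simp [Ne.symm hji]
          · simp [hρ, hb0 i]
        rw [this]; simp
      · simp
    have hsm : (smallQ b i).eval ρ ≠ 0 := by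
      rw [smallQ, eval_prod]
      apply Finset.prod_ne_zero_iff.mpr
      intro j hj h1
      have hji : j ≠ i := (Finset.mem_erase.mp hj).1
      apply hji
      apply hb i j 0
      simp only [eval_sub, eval_one, eval_mul, eval_C, eval_X, hρ] at h1
      have := hb0 i
      field_simp at h1
      simp only [zpow_zero, mul_one]
      linear_combination -h1
    rw [hQ0, zero_mul, hsum] at h0
    have h2 : c'.eval ρ * c'.eval (q * ρ) = 0 :=
      (mul_eq_zero.mp h0.symm).resolve_right (mul_ne_zero hei (mul_ne_zero hρ0 hsm))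
    rcases mul_eq_zero.mp h2 with h3 | h3
    · exact ⟨0, by simpa [S] using h3⟩
    · exact ⟨1, by simpa [S] using h3⟩
  obtain ⟨kmax, hkmax, hmax⟩ := Set.exists_max_image S id hSfin hSne
  obtain ⟨kmin, hkmin, hmin⟩ := Set.exists_min_image S id hSfin hSne
  have hshift : ∀ k : ℤ, q * (q ^ k * ρ) = q ^ (k + 1) * ρ := by
    intro k; rw [zpow_add_one₀ hq0]; ring
  have e1 : kmax = 0 := by
    apply hQ
    have h0 := hev (q ^ kmax * ρ)
    have h1 : c'.eval (q ^ kmax * ρ) = 0 := hkmax
    have h2 : c'.eval (q * (q ^ kmax * ρ)) ≠ 0 := by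
      rw [hshift]
      intro h3
      have := hmax (kmax + 1) h3
      simp at this
    rw [h1] at h0
    simp only [zero_mul, zero_sub, mul_neg, neg_eq_zero] at h0
    exact (mul_eq_zero.mp h0).resolve_right (mul_ne_zero h2 (hcop _ h1))
  have e2 : kmin - 1 = 0 := by
    apply hQ
    have h0 := hev (q ^ (kmin - 1) * ρ)
    have h1 : c'.eval (q * (q ^ (kmin - 1) * ρ)) = 0 := by
      rw [hshift, sub_add_cancel]; exact hkmin
    have h2 : c'.eval (q ^ (kmin - 1) * ρ) ≠ 0 := by
      intro h3
      have := hmin (kmin - 1) h3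
      simp at this
    rw [h1] at h0
    simp only [zero_mul, mul_zero, sub_zero] at h0
    exact (mul_eq_zero.mp h0).resolve_right (mul_ne_zero h2 (hcop _ h1))
  have := hmin kmax hkmax
  simp only [id] at this
  omega

end Vale.Agent.P314
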