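import Mathlib

/-!
A tiny structured language for stack machines over bits, with an exact step count, and its
compilation to the stack machines `Turing.TM2` of Mathlib.
-/

open Function Turing

namespace Vale.Agent.P314

/-- Structured stack programs. `loop k p` pops `true` from stack `k` and runs `p`, as long as the
top of stack `k` is `true`. -/
inductive Prog
  | skip
  | push (k : ℕ) (b : Bool)
  | pop (k : ℕ)
  | seq (p q : Prog)
  | loop (k : ℕ) (p : Prog)

/-- Contents of the stacks. -/
abbrev St := ℕ → List Bool

/-- Big-step semantics, counting visits of loop heads. -/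
inductive Ex : Prog → St → St → ℕ → Prop
  | skip (S : St) : Ex .skip S S 0
  | push (k : ℕ) (b : Bool) (S : St) : Ex (.push k b) S (update S k (b :: S k)) 0
  | pop (k : ℕ) (S : St) : Ex (.pop k) S (update S k (S k).tail) 0
  | seq {p q : Prog} {S S' S'' : St} {c c' : ℕ} :
      Ex p S S' c → Ex q S' S'' c' → Ex (.seq p q) S S'' (c + c')
  | exit {k : ℕ} {p : Prog} {S : St} : (S k).head? ≠ some true → Ex (.loop k p) S S 1
  | iter {k : ℕ} {p : Prog} {S S' S'' : St} {c c' : ℕ} : (S k).head? = some true →
      Ex p (update S k (S k).tail) S' c → Ex (.loop k p) S' S'' c' →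
      Ex (.loop k p) S S'' (c + c' + 1)

lemma Ex.cast {p : Prog} {S S' T T' : St} {c c' : ℕ} (h : Ex p S S' c) (h1 : S = T)
    (h2 : S' = T') (h3 : c = c') : Ex p T T' c' := h1 ▸ h2 ▸ h3 ▸ h

/-- A bound for the stack indices used. -/
def Prog.bd : Prog → ℕ
  | .skip => 0
  | .push k _ => k + 1
  | .pop k => k + 1
  | .seq p q => max p.bd q.bd
  | .loop k p => max (k + 1) p.bd

/-- Labels: one for each loop. -/
def Prog.Lab : Prog → Type
  | .skip => Empty
  | .push _ _ => Empty
  | .pop _ => Empty
  | .seq p q => p.Lab ⊕ q.Lab
  | .loop _ p => Option p.Lab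

/-- There are finitely many labels. -/
@[reducible] def Prog.labFintype : (p : Prog) → Fintype p.Lab
  | .skip => inferInstanceAs (Fintype Empty)
  | .push _ _ => inferInstanceAs (Fintype Empty)
  | .pop _ => inferInstanceAs (Fintype Empty)
  | .seq p q =>
    letI := p.labFintype
    letI := q.labFintype
    inferInstanceAs (Fintype (p.Lab ⊕ q.Lab))
  | .loop _ p =>
    letI := p.labFintype
    inferInstanceAs (Fintype (Option p.Lab))

/-- The stack with a given number. -/
def toFin (D k : ℕ) : Fin (D + 1) := if h : k < D + 1 then ⟨k, h⟩ else 0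

/-- Statements of the target machine. -/
abbrev Stm (D : ℕ) (Λ : Type) := TM2.Stmt (fun _ : Fin (D + 1) => Bool) Λ Bool

/-- Entry code of a program followed by a continuation. -/
def comp (D : ℕ) {Λ : Type} : (p : Prog) → (p.Lab → Λ) → Stm D Λ → Stm D Λ
  | .skip, _, k => k
  | .push i b, _, k => .push (toFin D i) (fun _ => b) k
  | .pop i, _, k => .pop (toFin D i) (fun v _ => v) k
  | .seq p q, emb, k => comp D p (fun l => emb (.inl l)) (comp D q (fun l => emb (.inr l)) k)
  | .loop _ _, emb, _ => .goto fun _ => emb none

/-- Code at the labels of a program. -/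
def tbl (D : ℕ) {Λ : Type} : (p : Prog) → (p.Lab → Λ) → Stm D Λ → p.Lab → Stm D Λ
  | .skip, _, _, l => Empty.elim l
  | .push _ _, _, _, l => Empty.elim l
  | .pop _, _, _, l => Empty.elim l
  | .seq p q, emb, k, .inl l =>
      tbl D p (fun l => emb (.inl l)) (comp D q (fun l => emb (.inr l)) k) l
  | .seq _ q, emb, k, .inr l => tbl D q (fun l => emb (.inr l)) k l
  | .loop i p, emb, k, none =>
      .peek (toFin D i) (fun _ o => decide (o = some true)) (.branch id
        (.pop (toFin D i) (fun _ _ => false)
          (comp D p (fun l => emb (some l)) (.goto fun _ => emb none))) k)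
  | .loop _ p, emb, _, some l => tbl D p (fun l => emb (some l)) (.goto fun _ => emb none) l

/-- Restriction of the stacks to the finitely many that the machine has. -/
def res (D : ℕ) (S : St) : ∀ _ : Fin (D + 1), List Bool := fun i => S i

lemma res_toFin {D k : ℕ} (hk : k < D + 1) (S : St) : res D S (toFin D k) = S k := by
  simp [res, toFin, hk]

lemma res_update {D k : ℕ} (hk : k < D + 1) (S : St) (x : List Bool) :
    update (res D S) (toFin D k) x = res D (update S k x) := by
  funext i
  by_cases h : i = toFin D k
  · subst h
    rw [update_self, res_toFin hk, update_self]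
  · rw [update_of_ne h]
    have : (i : ℕ) ≠ k := by
      intro h'
      apply h
      apply Fin.ext
      simp [toFin, hk, h']
    simp [res, update_of_ne this]

theorem sim {D : ℕ} {Λ : Type} (M : Λ → Stm D Λ) {p : Prog} {S S' : St} {c : ℕ}
    (h : Ex p S S' c) : p.bd ≤ D + 1 → ∀ (emb : p.Lab → Λ) (k : Stm D Λ),
      (∀ l, M (emb l) = tbl D p emb k l) →
      (flip bind (TM2.step M))^[c] (some (TM2.stepAux (comp D p emb k) false (res D S))) =
        some (TM2.stepAux k false (res D S')) := by
  induction h with
  | skip S => intro _ emb k _; rfl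
  | push i b S =>
    intro hb emb k _
    have hi : i < D + 1 := hb
    simp only [comp, TM2.stepAux, iterate_zero, id]
    rw [res_toFin hi, res_update hi]
  | pop i S =>
    intro hb emb k _
    have hi : i < D + 1 := hb
    simp only [comp, TM2.stepAux, iterate_zero, id]
    rw [res_toFin hi, res_update hi]
  | @seq p q S S' S'' c c' _ _ ihp ihq =>
    intro hb emb k hM
    have hp : p.bd ≤ D + 1 := le_trans (le_max_left _ _) hb
    have hq : q.bd ≤ D + 1 := le_trans (le_max_right _ _) hb
    rw [add_comm c c', iterate_add_apply]
    simp only [comp]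
    rw [ihp hp _ _ fun l => hM (.inl l), ihq hq _ _ fun l => hM (.inr l)]
  | @exit i p S hS =>
    intro hb emb k hM
    have hi : i < D + 1 := lt_of_lt_of_le (Nat.lt_succ_self i) (le_trans (le_max_left _ _) hb)
    have h1 := hM none
    simp only [comp, TM2.stepAux, iterate_one, flip, Option.bind_eq_bind, Option.bind_some,
      TM2.step]
    rw [h1]
    simp only [tbl, TM2.stepAux, res_toFin hi, hS, decide_false, id, cond_false]
  | @iter i p S S' S'' c c' hS _ _ ihp ihl =>
    intro hb emb k hM
    have hi : i < D + 1 := lt_of_lt_of_le (Nat.lt_succ_self i) (le_trans (le_max_left _ _) hb)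
    have hp : p.bd ≤ D + 1 := le_trans (le_max_right _ _) hb
    have h1 := hM none
    have h2 := ihp hp (fun l => emb (some l)) (.goto fun _ => emb none) fun l => hM (some l)
    have h3 := ihl hb emb k hM
    rw [iterate_succ_apply, add_comm c c', iterate_add_apply]
    have h4 : flip bind (TM2.step M) (some (TM2.stepAux (comp D (.loop i p) emb k) false (res D S)))
        = some (TM2.stepAux (comp D p (fun l => emb (some l)) (.goto fun _ => emb none)) false
          (res D (update S i (S i).tail))) := by
      simp only [comp, TM2.stepAux, flip, Option.bind_eq_bind, Option.bind_some, TM2.step]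
      rw [h1]
      simp only [tbl, TM2.stepAux, res_toFin hi, hS, decide_true, id, cond_true, res_update hi]
    rw [h4, h2]
    exact h3

/-- The machine of a program; stack `1` is the input and stack `0` the output. -/
def machine (P : Prog) : FinTM2 where
  K := Fin (P.bd + 1 + 1)
  k₀ := 1
  k₁ := 0
  Γ := fun _ => Bool
  Λ := Option P.Lab
  main := none
  ΛFin := letI := P.labFintype; inferInstance
  σ := Bool
  initialState := false
  m := fun l => match l with
    | none => comp (P.bd + 1) P some .halt
    | some l => tbl (P.bd + 1) P some .halt l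

/-- Only stack `k` is nonempty. -/
def only (k : ℕ) (L : List Bool) : St := fun i => if i = k then L else []

/-- A run of the program is a run of the machine. -/
def machine_outputs (P : Prog) (inp out : List Bool) (c m : ℕ)
    (h : Ex P (only 1 inp) (only 0 out) c) (hm : c + 1 ≤ m) :
    TM2OutputsInTime (machine P) inp (some out) m where
  steps := c + 1
  steps_le_m := hm
  evals_in_steps := by
    have h1 := sim (D := P.bd + 1) (machine P).m h (by omega) some .halt fun l => rfl
    have h2 : (initList (machine P) inp).stk = res (P.bd + 1) (only 1 inp) := by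
      funext k
      simp only [initList, res, only]
      split_ifs with a b b
      · subst a; rfl
      · subst a; exact absurd rfl b
      · exact absurd (Fin.ext b) a
      · rfl
    have h3 : (haltList (machine P) out).stk = res (P.bd + 1) (only 0 out) := by
      funext k
      simp only [haltList, res, only]
      split_ifs with a b b
      · subst a; rfl
      · subst a; exact absurd rfl b
      · exact absurd (Fin.ext b) a
      · rfl
    rw [iterate_succ_apply]
    have h4 : flip bind (machine P).step (some (initList (machine P) inp)) =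
        some (TM2.stepAux (comp (P.bd + 1) P some .halt) false (res (P.bd + 1) (only 1 inp))) := by
      rw [← h2]; rfl
    rw [h4]
    refine h1.trans ?_
    rw [← h3]; rfl

/-- Counting loops. -/
lemma Ex.loop_count {k : ℕ} {p : Prog} (Sf : ℕ → St) (cf : ℕ → ℕ) (rest : List Bool)
    (hrest : rest.head? ≠ some true) : ∀ N : ℕ,
    (∀ j ≤ N, Sf j k = List.replicate j true ++ rest) →
    (∀ j < N, Ex p (update (Sf (j + 1)) k (List.replicate j true ++ rest)) (Sf j) (cf j)) →
    Ex (.loop k p) (Sf N) (Sf 0) (∑ j ∈ Finset.range N, (cf j + 1) + 1)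
  | 0, hk, _ => by
    refine (Ex.exit ?_).cast rfl rfl (by simp)
    rw [hk 0 le_rfl]; simpa using hrest
  | N + 1, hk, hs => by
    have h1 := Ex.loop_count Sf cf rest hrest N (fun j hj => hk j (by omega))
      (fun j hj => hs j (by omega))
    have h2 := hk (N + 1) le_rfl
    refine (Ex.iter (c := cf N) ?_ ?_ h1).cast rfl rfl ?_
    · rw [h2]; simp [List.replicate_succ]
    · rw [h2]
      simpa [List.replicate_succ] using hs N (by omega)
    · rw [Finset.sum_range_succ]; ring

end Vale.Agent.P314
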