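import Vale.Agent.P314.QDiff

/-!
The zero estimate for `q`-hyperlogarithms.
-/

open Polynomial

namespace Vale.Agent.P314

section Cramer

variable {A : Type*} [CommRing A] {W : Type*}

lemma exists_det_ne_zero [Nontrivial A] : ∀ (r : ℕ) (p : Fin r → (W →₀ A)),
    LinearIndependent A p → ∃ w : Fin r → W, (Matrix.of fun j k => p k (w j)).det ≠ 0
  | 0, _, _ => ⟨Fin.elim0, by simp⟩
  | r + 1, p, hp => by
    obtain ⟨w, hw⟩ := exists_det_ne_zero r (fun k => p k.succ)
      (hp.comp Fin.succ (Fin.succ_injective r))
    by_contra hcon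
    push Not at hcon
    let g : Fin (r + 1) → A := fun k =>
      (-1) ^ (k : ℕ) * (Matrix.of fun (j : Fin r) (l : Fin r) => p (k.succAbove l) (w j)).det
    have hsum : ∑ k, g k • p k = 0 := by
      ext x
      have h1 := hcon (Fin.cons x w)
      rw [Matrix.det_succ_row_zero] at h1
      rw [Finsupp.finsetSum_apply, Finsupp.coe_zero, Pi.zero_apply, ← h1]
      refine Finset.sum_congr rfl fun k _ => ?_
      have : (Matrix.of fun (j : Fin (r + 1)) (l : Fin (r + 1)) =>
          p l ((Fin.cons x w : Fin (r + 1) → W) j)).submatrix Fin.succ k.succAbove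
          = Matrix.of fun (j : Fin r) (l : Fin r) => p (k.succAbove l) (w j) := by
        ext j l; simp
      rw [this]
      simp only [g, Finsupp.smul_apply, smul_eq_mul, Matrix.of_apply, Fin.cons_zero]
      ring
    have h0 := Fintype.linearIndependent_iff.mp hp g hsum 0
    apply hw
    simpa [g] using h0

lemma cramer_span [IsDomain A] {r : ℕ} (p : Fin r → (W →₀ A)) (w : Fin r → W)
    (e : W →₀ A) {γ : A} (hγ : γ ≠ 0) (he : γ • e ∈ Submodule.span A (Set.range p)) :
    (Matrix.of fun j k => p k (w j)).det • e ∈ Submodule.span A (Set.range p) := by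
  set B : Matrix (Fin r) (Fin r) A := Matrix.of fun j k => p k (w j) with hB
  obtain ⟨a, ha⟩ := (Submodule.mem_span_range_iff_exists_fun A).mp he
  let v : Fin r → A := fun j => e (w j)
  have h1 : B.mulVec a = γ • v := by
    ext j
    have := congrArg (fun u : W →₀ A => u (w j)) ha
    simp only [Finsupp.finsetSum_apply, Finsupp.smul_apply, smul_eq_mul] at this
    simp only [Matrix.mulVec, dotProduct, hB, Matrix.of_apply, Pi.smul_apply, smul_eq_mul, v]
    rw [← this]
    exact Finset.sum_congr rfl fun k _ => mul_comm _ _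
  have h2 : B.det • a = γ • (B.adjugate.mulVec v) := by
    rw [← Matrix.mulVec_smul, ← h1, Matrix.mulVec_mulVec, Matrix.adjugate_mul,
      Matrix.smul_mulVec, Matrix.one_mulVec]
  have h3 : B.det • e = ∑ k, (B.adjugate.mulVec v) k • p k := by
    ext x
    apply mul_left_cancel₀ hγ
    have h4 := congrArg (fun u : W →₀ A => u x) ha
    simp only [Finsupp.finsetSum_apply, Finsupp.smul_apply, smul_eq_mul] at h4 ⊢
    rw [Finset.mul_sum, ← mul_assoc, mul_comm γ, mul_assoc, ← h4, Finset.mul_sum]
    refine Finset.sum_congr rfl fun k _ => ?_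
    have h5 := congrFun h2 k
    simp only [Pi.smul_apply, smul_eq_mul] at h5
    rw [← mul_assoc, h5, mul_assoc]
  rw [h3]
  exact Submodule.sum_mem _ fun k _ => Submodule.smul_mem _ _ (Submodule.subset_span ⟨k, rfl⟩)

end Cramer

variable {K : Type*} [Field K]

lemma natDegree_det_le {r : ℕ} (B : Matrix (Fin r) (Fin r) K[X]) (δ : ℕ)
    (h : ∀ j k, (B j k).natDegree ≤ δ) : B.det.natDegree ≤ r * δ := by
  rw [Matrix.det_apply]
  refine natDegree_sum_le_of_forall_le _ _ fun s _ => ?_
  refine (natDegree_smul_le _ _).trans ?_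
  refine (natDegree_prod_le _ _).trans ?_
  refine (Finset.sum_le_sum fun k _ => h (s k) k).trans ?_
  simp

variable {ι : Type*} [Fintype ι] [DecidableEq ι]

/-- Left quotient of a finitely supported function on words. -/
noncomputable def quo {A : Type*} [Zero A] (i : ι) (u : List ι →₀ A) : List ι →₀ A :=
  Finsupp.comapDomain (List.cons i) u (List.cons_injective.injOn)

omit [Fintype ι] [DecidableEq ι] in
@[simp] lemma quo_apply {A : Type*} [Zero A] (i : ι) (u : List ι →₀ A) (w : List ι) :
    quo i u w = u (i :: w) := rfl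

/-- The `q`-difference operator on polynomial combinations of words. -/
noncomputable def psi (q : K) (b : ι → K) (u : List ι →₀ K[X]) : List ι →₀ K[X] :=
  bigQ b • Finsupp.mapRange (dil q) (map_zero _) u -
    ∑ i, (X * smallQ b i) • Finsupp.mapRange (dil q) (map_zero _) (quo i u)

lemma psi_apply (q : K) (b : ι → K) (u : List ι →₀ K[X]) (w : List ι) :
    psi q b u w = bigQ b * dil q (u w) - ∑ i, (X * smallQ b i) * dil q (u (i :: w)) := by
  simp [psi]

lemma psi_add (q : K) (b : ι → K) (u v : List ι →₀ K[X]) :
    psi q b (u + v) = psi q b u + psi q b v := by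
  ext1 w
  simp only [psi_apply, Finsupp.add_apply, map_add, mul_add, Finset.sum_add_distrib]
  ring

lemma psi_smul (q : K) (b : ι → K) (c : K[X]) (u : List ι →₀ K[X]) :
    psi q b (c • u) = dil q c • psi q b u := by
  ext1 w
  simp only [psi_apply, Finsupp.smul_apply, smul_eq_mul, map_mul, mul_sub, Finset.mul_sum]
  congr 1
  · ring
  · exact Finset.sum_congr rfl fun i _ => by ring

lemma psi_zero (q : K) (b : ι → K) : psi q b (0 : List ι →₀ K[X]) = 0 := by
  ext1 w
  simp [psi_apply]

lemma psi_mem_span (q : K) (b : ι → K) {s : Set (List ι →₀ K[X])}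
    {U : Submodule K[X] (List ι →₀ K[X])} (h : ∀ g ∈ s, psi q b g ∈ U) :
    ∀ u ∈ Submodule.span K[X] s, psi q b u ∈ U := by
  intro u hu
  induction hu using Submodule.span_induction with
  | mem x hx => exact h x hx
  | zero => rw [psi_zero]; exact U.zero_mem
  | add x y _ _ hx hy => rw [psi_add]; exact U.add_mem hx hy
  | smul c x _ hx => rw [psi_smul]; exact U.smul_mem _ hx

/-- A nonzero stable submodule contains a nonzero multiple of the empty word. -/
lemma exists_single_nil_mem {q : K} (hq0 : q ≠ 0) (hq : Function.Injective fun k : ℤ => q ^ k)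
    {b : ι → K} (hb0 : ∀ i, b i ≠ 0) (hb : ∀ i j (k : ℤ), b j * q ^ k = b i → j = i)
    (U : Submodule K[X] (List ι →₀ K[X])) (hU : ∀ u ∈ U, psi q b u ∈ U) :
    ∀ (d t : ℕ) (u : List ι →₀ K[X]), u ∈ U → u ≠ 0 → (∀ w, d < w.length → u w = 0) →
      (u.support.filter fun w => w.length = d).card ≤ t →
      ∃ c : K[X], c ≠ 0 ∧ Finsupp.single [] c ∈ U := by
  intro d
  induction d with
  | zero =>
    intro t u hu hu0 hd _
    have : u = Finsupp.single [] (u []) := by
      ext1 w
      cases w with
      | nil => simp
      | cons i w => rw [hd _ (by simp)]; simp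
    refine ⟨u [], fun h => hu0 ?_, this ▸ hu⟩
    rw [this, h, Finsupp.single_zero]
  | succ d ihd =>
    intro t
    induction t with
    | zero =>
      intro u hu hu0 hd ht
      refine ihd _ u hu hu0 (fun w hw => ?_) le_rfl
      rcases Nat.lt_or_ge (d + 1) w.length with h | h
      · exact hd w h
      · by_contra hne
        have hmem : w ∈ u.support.filter fun w => w.length = d + 1 := by
          simp only [Finset.mem_filter, Finsupp.mem_support_iff]
          exact ⟨hne, by omega⟩
        rw [Nat.le_zero, Finset.card_eq_zero] at ht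
        rw [ht] at hmem
        simp at hmem
    | succ t iht =>
      intro u hu hu0 hd ht
      by_cases hle : (u.support.filter fun w => w.length = d + 1).card ≤ t
      · exact iht u hu hu0 hd hle
      have hpos : (u.support.filter fun w => w.length = d + 1).Nonempty := by
        rw [← Finset.card_pos]; omega
      obtain ⟨w0, hw0⟩ := hpos
      have hw0' := hw0
      simp only [Finset.mem_filter, Finsupp.mem_support_iff] at hw0'
      obtain ⟨hc, hlen⟩ := hw0'
      set c := u w0 with hcdef
      set u' := c • psi q b u - (bigQ b * dil q c) • u with hu'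
      have hu'U : u' ∈ U := U.sub_mem (U.smul_mem _ (hU u hu)) (U.smul_mem _ hu)
      have htop : ∀ w, d + 1 ≤ w.length → u' w = bigQ b * (c * dil q (u w) - dil q c * u w) := by
        intro w hw
        have : ∀ i, u (i :: w) = 0 := fun i => hd _ (by simp; omega)
        simp only [hu', Finsupp.sub_apply, Finsupp.smul_apply, smul_eq_mul, psi_apply, this,
          map_zero, mul_zero, Finset.sum_const_zero, sub_zero]
        ring
      by_cases hz : u' = 0
      · exfalso
        obtain ⟨i0, w1, rfl⟩ : ∃ i0 w1, w0 = i0 :: w1 := by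
          cases w0 with
          | nil => simp at hlen
          | cons i w => exact ⟨i, w, rfl⟩
        have hlen1 : w1.length = d := by simpa using hlen
        have hconst : ∀ i, ∃ e : K, u (i :: w1) = C e * c := by
          intro i
          apply const_of_dil_invariant hq0 hq hc
          have h1 := htop (i :: w1) (by simp [hlen1])
          rw [hz, Finsupp.coe_zero, Pi.zero_apply] at h1
          exact sub_eq_zero.mp ((mul_eq_zero.mp h1.symm).resolve_left (bigQ_ne_zero b))
        choose e he using hconst
        have h2 : u' w1 = 0 := by rw [hz]; rfl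
        simp only [hu', Finsupp.sub_apply, Finsupp.smul_apply, smul_eq_mul, psi_apply, he,
          map_mul, dil_C] at h2
        have h3 : bigQ b * (c * dil q (u w1) - dil q c * u w1) =
            c * dil q c * ∑ i, C (e i) * (X * smallQ b i) := by
          have h4 : c * dil q c * ∑ i, C (e i) * (X * smallQ b i) =
              c * ∑ i, X * smallQ b i * (C (e i) * dil q c) := by
            rw [mul_assoc, Finset.mul_sum]
            congr 1
            exact Finset.sum_congr rfl fun i _ => by ring
          rw [h4]
          linear_combination h2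
        have h5 := residues_vanish hq0 hq hb0 hb hc e h3 i0
        apply hc
        rw [hcdef, he i0, h5, C_0, zero_mul]
      · refine iht u' hu'U hz (fun w hw => ?_) ?_
        · rw [htop w hw.le, hd w hw]; simp
        · have hsub : (u'.support.filter fun w => w.length = d + 1) ⊆
              (u.support.filter fun w => w.length = d + 1).erase w0 := by
            intro w hw
            simp only [Finset.mem_filter, Finsupp.mem_support_iff, Finset.mem_erase] at hw ⊢
            obtain ⟨h1, h2⟩ := hw
            rw [htop w h2.ge] at h1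
            refine ⟨?_, ?_, h2⟩
            · rintro rfl
              apply h1
              rw [← hcdef]; ring
            · intro h3
              apply h1
              rw [h3]; simp
          have := Finset.card_le_card hsub
          rw [Finset.card_erase_of_mem hw0] at this
          omega

lemma natDegree_psi_iterate (q : K) (b : ι → K) (f : List ι →₀ K[X])
    (hf : ∀ w, (f w).natDegree = 0) :
    ∀ (k : ℕ) (w : List ι), (((psi q b)^[k] f) w).natDegree ≤ k * Fintype.card ι := by
  intro k
  induction k with
  | zero => intro w; simp [hf]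
  | succ k ih =>
    intro w
    rw [Function.iterate_succ_apply', psi_apply]
    refine (natDegree_sub_le _ _).trans (max_le ?_ ?_)
    · refine natDegree_mul_le.trans ?_
      have := natDegree_bigQ_le b
      have := (natDegree_dil_le q _).trans (ih w)
      rw [Nat.succ_mul]; omega
    · refine natDegree_sum_le_of_forall_le _ _ fun i _ => ?_
      refine natDegree_mul_le.trans ?_
      have := natDegree_X_smallQ_le b i
      have := (natDegree_dil_le q _).trans (ih (i :: w))
      rw [Nat.succ_mul]; omega

/-- The abstract zero estimate: a stable submodule `Z` containing a nonzero constant vector `f`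
of a stable module with `N` generators contains a low-degree multiple of the empty word. -/
theorem exists_low_degree {q : K} (hq0 : q ≠ 0) (hq : Function.Injective fun k : ℤ => q ^ k)
    {b : ι → K} (hb0 : ∀ i, b i ≠ 0) (hb : ∀ i j (k : ℤ), b j * q ^ k = b i → j = i)
    (G : Finset (List ι →₀ K[X])) (N : ℕ) (hG : G.card ≤ N)
    (hGs : ∀ g ∈ G, psi q b g ∈ Submodule.span K[X] (G : Set (List ι →₀ K[X])))
    (f : List ι →₀ K[X]) (hfG : f ∈ Submodule.span K[X] (G : Set (List ι →₀ K[X])))
    (hf0 : f ≠ 0) (hf : ∀ w, (f w).natDegree = 0)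
    (Z : Submodule K[X] (List ι →₀ K[X])) (hZ : ∀ u ∈ Z, psi q b u ∈ Z) (hfZ : f ∈ Z) :
    ∃ Δ : K[X], Δ ≠ 0 ∧ Δ.natDegree ≤ N * (N * Fintype.card ι) ∧ Finsupp.single [] Δ ∈ Z := by
  classical
  let p : ℕ → (List ι →₀ K[X]) := fun k => (psi q b)^[k] f
  have hps : ∀ k, p (k + 1) = psi q b (p k) := fun k => Function.iterate_succ_apply' _ _ _
  have hpG : ∀ k, p k ∈ Submodule.span K[X] (G : Set (List ι →₀ K[X])) := by
    intro k
    induction k with
    | zero => exact hfG
    | succ k ih => rw [hps]; exact psi_mem_span q b hGs _ ih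
  have hpZ : ∀ k, p k ∈ Z := by
    intro k
    induction k with
    | zero => exact hfZ
    | succ k ih => rw [hps]; exact hZ _ ih
  have hcard : ∀ r, LinearIndependent K[X] (fun k : Fin r => p k) → r ≤ N := by
    intro r hr
    have := linearIndependent_le_span_aux' _ hr (G : Set (List ι →₀ K[X]))
      (by rintro _ ⟨k, rfl⟩; exact hpG k)
    simp only [Fintype.card_fin, Finset.coe_sort_coe, Fintype.card_coe] at this
    omega
  have hex : ∃ r, ¬ LinearIndependent K[X] (fun k : Fin (r + 1) => p k) :=
    ⟨N, fun h => by have := hcard _ h; omega⟩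
  set r := Nat.find hex with hr
  have hdep : ¬ LinearIndependent K[X] (fun k : Fin (r + 1) => p k) := Nat.find_spec hex
  have hind : LinearIndependent K[X] (fun k : Fin r => p k) := by
    rcases Nat.eq_zero_or_pos r with h0 | h0
    · rw [h0]; exact linearIndependent_empty_type
    · obtain ⟨r', hr'⟩ : ∃ r', r = r' + 1 := ⟨r - 1, by omega⟩
      have := Nat.find_min hex (m := r') (by omega)
      rw [hr']
      exact not_not.mp this
  have hrN := hcard r hind
  set P := Submodule.span K[X] (Set.range fun k : Fin r => p k) with hP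
  have hPZ : P ≤ Z := Submodule.span_le.mpr (by rintro _ ⟨k, rfl⟩; exact hpZ k)
  let U : Submodule K[X] (List ι →₀ K[X]) :=
    { carrier := {u | ∃ γ : K[X], γ ≠ 0 ∧ γ • u ∈ P}
      add_mem' := by
        rintro u v ⟨γ, hγ, hu⟩ ⟨γ', hγ', hv⟩
        refine ⟨γ * γ', mul_ne_zero hγ hγ', ?_⟩
        have : (γ * γ') • (u + v) = γ' • (γ • u) + γ • (γ' • v) := by
          rw [smul_add, smul_smul, smul_smul, mul_comm γ' γ]
        rw [this]
        exact P.add_mem (P.smul_mem _ hu) (P.smul_mem _ hv)
      zero_mem' := ⟨1, one_ne_zero, by simp⟩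
      smul_mem' := by
        rintro c u ⟨γ, hγ, hu⟩
        refine ⟨γ, hγ, ?_⟩
        rw [smul_comm]
        exact P.smul_mem _ hu }
  have hUmem : ∀ u, u ∈ U ↔ ∃ γ : K[X], γ ≠ 0 ∧ γ • u ∈ P := fun u => Iff.rfl
  have hlt : ∀ k, k < r → p k ∈ P := fun k hk => Submodule.subset_span ⟨⟨k, hk⟩, rfl⟩
  have hpr : p r ∈ U := by
    rw [Fintype.linearIndependent_iff] at hdep
    push Not at hdep
    obtain ⟨g, hg, k0, hk0⟩ := hdep
    rw [Fin.sum_univ_castSucc] at hg
    by_cases hl : g (Fin.last r) = 0
    · exfalso
      rw [hl, zero_smul, add_zero] at hg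
      have h1 := Fintype.linearIndependent_iff.mp hind (fun k => g k.castSucc) hg
      apply hk0
      induction k0 using Fin.lastCases with
      | last => exact hl
      | cast k => exact h1 k
    · refine ⟨g (Fin.last r), hl, ?_⟩
      have h1 : g (Fin.last r) • p r = -∑ k : Fin r, g k.castSucc • p k :=
        eq_neg_of_add_eq_zero_right hg
      rw [h1]
      exact P.neg_mem (P.sum_mem fun k _ => P.smul_mem _ (hlt k k.2))
  have hle : ∀ k, k ≤ r → p k ∈ U := by
    intro k hk
    rcases hk.lt_or_eq with h | h
    · exact ⟨1, one_ne_zero, by rw [one_smul]; exact hlt k h⟩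
    · rw [h]; exact hpr
  have hPU : ∀ u ∈ P, psi q b u ∈ U := by
    apply psi_mem_span
    rintro _ ⟨k, rfl⟩
    rw [← hps]
    exact hle _ k.2
  have hUs : ∀ u ∈ U, psi q b u ∈ U := by
    rintro u ⟨γ, hγ, hu⟩
    have h1 := hPU _ hu
    rw [psi_smul] at h1
    obtain ⟨γ', hγ', h2⟩ := h1
    exact ⟨γ' * dil q γ, mul_ne_zero hγ' (dil_ne_zero hq0 hγ), by rwa [mul_smul]⟩
  obtain ⟨c, hc, γ, hγ, hmem⟩ := exists_single_nil_mem hq0 hq hb0 hb U hUs
    (f.support.sup List.length) _ f (hle 0 (Nat.zero_le _)) hf0
    (fun w hw => by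
      by_contra hne
      have := Finset.le_sup (f := List.length) (Finsupp.mem_support_iff.mpr hne)
      omega) le_rfl
  obtain ⟨w, hw⟩ := exists_det_ne_zero r _ hind
  refine ⟨_, hw, ?_, ?_⟩
  · refine (natDegree_det_le _ (N * Fintype.card ι) fun j k => ?_).trans
      (Nat.mul_le_mul_right _ hrN)
    refine (natDegree_psi_iterate q b f hf k _).trans ?_
    exact Nat.mul_le_mul_right _ (k.2.le.trans hrN)
  · have h1 : (γ * c) • Finsupp.single ([] : List ι) (1 : K[X]) ∈ P := by
      rw [Finsupp.smul_single] at hmem ⊢
      simpa using hmem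
    have h2 := cramer_span _ w _ (mul_ne_zero hγ hc) h1
    rw [Finsupp.smul_single, smul_eq_mul, mul_one] at h2
    exact hPZ h2

end Vale.Agent.P314
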