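import Vale.Agent.P314.ZeroEst

/-!
The zero estimate, stated for power series satisfying the `q`-hyperlogarithm recursion.
-/

open Polynomial

namespace Vale.Agent.P314

variable {K : Type*} [Field K] {ι : Type*} [Fintype ι] [DecidableEq ι]

/-- `u ↦ ∑ u(w) Λ(w)`. -/
noncomputable def ell (Λ : List ι → PowerSeries K) : (List ι →₀ K[X]) →+ PowerSeries K :=
  Finsupp.liftAddHom fun w =>
    (AddMonoidHom.mulRight (Λ w)).comp (coeToPowerSeries.ringHom (R := K)).toAddMonoidHom

omit [Fintype ι] [DecidableEq ι] in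
@[simp] lemma ell_single (Λ : List ι → PowerSeries K) (w : List ι) (c : K[X]) :
    ell Λ (Finsupp.single w c) = (c : PowerSeries K) * Λ w := by
  simp [ell, coeToPowerSeries.ringHom_apply]

omit [Fintype ι] [DecidableEq ι] in
lemma ell_smul (Λ : List ι → PowerSeries K) (c : K[X]) (u : List ι →₀ K[X]) :
    ell Λ (c • u) = (c : PowerSeries K) * ell Λ u := by
  induction u using Finsupp.induction_linear with
  | zero => simp
  | add u v hu hv => rw [smul_add, map_add, map_add, hu, hv, mul_add]
  | single w a => rw [Finsupp.smul_single, ell_single, ell_single, smul_eq_mul, coe_mul, mul_assoc]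

lemma coe_dil (q : K) (p : K[X]) :
    ((dil q p : K[X]) : PowerSeries K) = PowerSeries.rescale q (p : PowerSeries K) := by
  ext k
  rw [coeff_coe, PowerSeries.coeff_rescale, coeff_coe, dil_coeff, mul_comm]

lemma psi_single_nil (q : K) (b : ι → K) (c : K[X]) :
    psi q b (Finsupp.single [] c) = Finsupp.single [] (bigQ b * dil q c) := by
  ext1 w
  rw [psi_apply]
  cases w with
  | nil => simp
  | cons j w => simp

lemma psi_single_cons (q : K) (b : ι → K) (i : ι) (w : List ι) (c : K[X]) :
    psi q b (Finsupp.single (i :: w) c) = Finsupp.single (i :: w) (bigQ b * dil q c) -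
      Finsupp.single w (X * smallQ b i * dil q c) := by
  classical
  ext1 v
  rw [psi_apply, Finsupp.sub_apply]
  congr 1
  · by_cases h : i :: w = v
    · subst h; simp
    · simp [h]
  · rw [Finset.sum_eq_single i]
    · by_cases h : w = v
      · subst h; simp
      · simp [h]
    · intro j _ hj
      simp [Ne.symm hj]
    · simp

lemma ell_psi (q : K) (b : ι → K) (Λ : List ι → PowerSeries K) (h0 : Λ [] = 1)
    (hΛ : ∀ i w, (1 - PowerSeries.C (b i) * PowerSeries.X) *
      (Λ (i :: w) - PowerSeries.rescale q (Λ (i :: w))) = PowerSeries.X * Λ w)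
    (u : List ι →₀ K[X]) :
    ell Λ (psi q b u) = (bigQ b : PowerSeries K) * PowerSeries.rescale q (ell Λ u) := by
  induction u using Finsupp.induction_linear with
  | zero => simp [psi_zero]
  | add u v hu hv => rw [psi_add, map_add, map_add, hu, hv, map_add, mul_add]
  | single w c =>
    cases w with
    | nil => rw [psi_single_nil, ell_single, ell_single, h0, mul_one, mul_one, coe_mul, coe_dil]
    | cons i w =>
      rw [psi_single_cons, map_sub, ell_single, ell_single, ell_single, map_mul, bigQ_eq b i]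
      simp only [coe_mul, coe_dil, coe_sub, coe_one, coe_C, coe_X]
      linear_combination ((smallQ b i : K[X]) : PowerSeries K) *
        PowerSeries.rescale q (c : PowerSeries K) * hΛ i w

theorem zero_estimate {q : K} (hq0 : q ≠ 0) (hq : Function.Injective fun k : ℤ => q ^ k)
    {b : ι → K} (hb0 : ∀ i, b i ≠ 0) (hb : ∀ i j (k : ℤ), b j * q ^ k = b i → j = i)
    (Λ : List ι → PowerSeries K) (h0 : Λ [] = 1)
    (hΛ : ∀ i w, (1 - PowerSeries.C (b i) * PowerSeries.X) *
      (Λ (i :: w) - PowerSeries.rescale q (Λ (i :: w))) = PowerSeries.X * Λ w)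
    (G : Finset (List ι →₀ K[X])) (N : ℕ) (hG : G.card ≤ N)
    (hGs : ∀ g ∈ G, psi q b g ∈ Submodule.span K[X] (G : Set (List ι →₀ K[X])))
    (f : List ι →₀ K[X]) (hfG : f ∈ Submodule.span K[X] (G : Set (List ι →₀ K[X])))
    (hf0 : f ≠ 0) (hf : ∀ w, (f w).natDegree = 0)
    (M : ℕ) (hM : N * (N * Fintype.card ι) < M) :
    ∃ m < M, PowerSeries.coeff m (ell Λ f) ≠ 0 := by
  by_contra hcon
  push Not at hcon
  let Z : Submodule K[X] (List ι →₀ K[X]) :=
    { carrier := {u | PowerSeries.X ^ M ∣ ell Λ u}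
      add_mem' := by
        intro u v hu hv
        simp only [Set.mem_ofPred_eq, map_add] at *
        exact dvd_add hu hv
      zero_mem' := by simp
      smul_mem' := by
        intro c u hu
        simp only [Set.mem_ofPred_eq, ell_smul] at *
        exact hu.mul_left _ }
  have hZ : ∀ u ∈ Z, psi q b u ∈ Z := by
    intro u hu
    change PowerSeries.X ^ M ∣ ell Λ (psi q b u)
    rw [ell_psi q b Λ h0 hΛ]
    apply Dvd.dvd.mul_left
    have hu' : PowerSeries.X ^ M ∣ ell Λ u := hu
    rw [PowerSeries.X_pow_dvd_iff] at hu' ⊢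
    intro m hm
    rw [PowerSeries.coeff_rescale, hu' m hm, mul_zero]
  obtain ⟨Δ, hΔ, hdeg, hmem⟩ := exists_low_degree hq0 hq hb0 hb G N hG hGs f hfG hf0 hf Z hZ
    (PowerSeries.X_pow_dvd_iff.mpr hcon)
  have h1 : PowerSeries.X ^ M ∣ ell Λ (Finsupp.single [] Δ) := hmem
  rw [ell_single, h0, mul_one, PowerSeries.X_pow_dvd_iff] at h1
  have h2 := h1 Δ.natDegree (by omega)
  rw [coeff_coe] at h2
  exact leadingCoeff_ne_zero.mpr hΔ h2

end Vale.Agent.P314
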